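import Vale.Agent.P237.Profile.Deriv

/-!
# The derivative along the path is nonnegative
-/

namespace Vale.Agent.P237.Profile

open Set MeasureTheory Filter Stage
open scoped Topology Real

variable {g : ℝ → ℝ}

lemma muI_integral (f : ℝ → ℝ) : ∫ t, f t ∂μI = ∫ t in (0:ℝ)..1, f t := by
  rw [μI, intervalIntegral.integral_of_le zero_le_one, integral_Ioc_eq_integral_Ioo]

lemma ii_congr {f h : ℝ → ℝ} {a b : ℝ} (hab : a ≤ b) (H : ∀ t ∈ Ioo a b, f t = h t) :
    ∫ t in a..b, f t = ∫ t in a..b, h t := by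
  rw [intervalIntegral.integral_of_le hab, intervalIntegral.integral_of_le hab,
    integral_Ioc_eq_integral_Ioo, integral_Ioc_eq_integral_Ioo]
  exact setIntegral_congr_fun measurableSet_Ioo H

lemma ii_mono {f h : ℝ → ℝ} {a b : ℝ} (hab : a ≤ b) (hf : IntervalIntegrable f volume a b)
    (hh : IntervalIntegrable h volume a b) (H : ∀ t ∈ Ioo a b, f t ≤ h t) :
    ∫ t in a..b, f t ≤ ∫ t in a..b, h t :=
  intervalIntegral.integral_mono_on_of_le_Ioo hab hf hh H

lemma ii_sqrt : ∫ t in (0:ℝ)..1, √(1 - t ^ 2) = π / 4 := by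
  have h := integral_sqrt_one_sub_sq
  have hi : ∀ a b : ℝ, IntervalIntegrable (fun t : ℝ => √(1 - t ^ 2)) volume a b :=
    fun a b => (by fun_prop : Continuous fun t : ℝ => √(1 - t ^ 2)).intervalIntegrable a b
  rw [← intervalIntegral.integral_add_adjacent_intervals (hi (-1) 0) (hi 0 1)] at h
  have e : ∫ t in (-1:ℝ)..0, √(1 - t ^ 2) = ∫ t in (0:ℝ)..1, √(1 - t ^ 2) := by
    have := intervalIntegral.integral_comp_neg (a := (-1:ℝ)) (b := 0) (fun t : ℝ => √(1 - t ^ 2))
    simpa using this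
  linarith

lemma ii_pow (a b : ℝ) (n : ℕ) (c : ℝ) :
    IntervalIntegrable (fun t : ℝ => c * t ^ n) volume a b :=
  (by fun_prop : Continuous fun t : ℝ => c * t ^ n).intervalIntegrable a b

/-- `∫_0^d (a w + b w² + c w³ + e w⁴)`. -/
lemma ii_poly4 (d a b c e : ℝ) :
    ∫ w in (0:ℝ)..d, (a * w ^ 1 + b * w ^ 2 + c * w ^ 3 + e * w ^ 4)
      = a * d ^ 2 / 2 + b * d ^ 3 / 3 + c * d ^ 4 / 4 + e * d ^ 5 / 5 := by
  rw [intervalIntegral.integral_add (((ii_pow 0 d 1 a).add (ii_pow 0 d 2 b)).add (ii_pow 0 d 3 c))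
      (ii_pow 0 d 4 e),
    intervalIntegral.integral_add ((ii_pow 0 d 1 a).add (ii_pow 0 d 2 b)) (ii_pow 0 d 3 c),
    intervalIntegral.integral_add (ii_pow 0 d 1 a) (ii_pow 0 d 2 b)]
  simp only [intervalIntegral.integral_const_mul, integral_pow]
  norm_num
  ring

lemma ii_sub_left (f : ℝ → ℝ) (p q : ℝ) :
    ∫ t in p..q, f (q - t) = ∫ w in (0:ℝ)..(q - p), f w := by
  rw [intervalIntegral.integral_comp_sub_left]; simp

lemma tang_sub {q w : ℝ} (h0 : 0 ≤ q) (h1 : q < 1) :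
    tang q (q - w) = √(1 - q ^ 2) + q * w / √(1 - q ^ 2) := by
  have hS := sqrt_pos_of (by linarith : -1 < q) h1
  have hS2 : √(1 - q ^ 2) ^ 2 = 1 - q ^ 2 := Real.sq_sqrt (by nlinarith)
  unfold tang
  field_simp
  rw [hS2]; ring

/-- The data of one stage. -/
structure Seg (g : ℝ → ℝ) (p q : ℝ) : Prop where
  hp : 0 ≤ p
  hpq : p < q
  hq : q < 1
  above : ∀ t ∈ Ioo p q, tang q t < g t
  below : ∀ t ∈ Ioo (0:ℝ) p, g t ≤ tang q t

lemma exists_seg (hg : Adm g) {q : ℝ} (hq : q < 1)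
    (hE : ∃ t ∈ Ioo (0:ℝ) 1, t < q ∧ tang q t < g t) : ∃ p, Seg g p q := by
  set E := {t : ℝ | t ∈ Ioo (0:ℝ) 1 ∧ t < q ∧ tang q t < g t} with hEd
  obtain ⟨t0, ht0, ht0'⟩ := hE
  have hne : E.Nonempty := ⟨t0, ht0, ht0'⟩
  have hbdd : BddBelow E := ⟨0, fun t ht => ht.1.1.le⟩
  have hq0 : 0 < q := ht0.1.trans ht0'.1
  refine ⟨sInf E, le_csInf hne fun t ht => ht.1.1.le,
    lt_of_le_of_lt (csInf_le hbdd ⟨ht0, ht0'⟩) ht0'.1, hq, ?_, ?_⟩
  · intro u hu
    obtain ⟨t, ⟨ht, htq, htg⟩, htu⟩ := (csInf_lt_iff hbdd hne).1 hu.1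
    have hS := sqrt_pos_of (by linarith : -1 < q) hq
    have hw : 0 < (q - u) / (q - t) ∧ 0 ≤ (u - t) / (q - t) :=
      ⟨div_pos (by linarith [hu.2]) (by linarith), div_nonneg (by linarith) (by linarith)⟩
    have hsum : (q - u) / (q - t) + (u - t) / (q - t) = 1 := by
      rw [← add_div, div_eq_one_iff_eq (by linarith)]; ring
    have hc := hg.conc.2 (Ioo_subset_Icc_self ht) ⟨hq0.le, hq.le⟩ hw.1.le hw.2 hsum
    have hu' : ((q - u) / (q - t)) * t + ((u - t) / (q - t)) * q = u := by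
      have : q - t ≠ 0 := by linarith
      field_simp; ring
    simp only [smul_eq_mul, hu'] at hc
    have hgq : tang q q ≤ g q := by
      rw [tang_self (by linarith) hq]; exact hg.ge q ⟨hq0.le, hq.le⟩
    calc tang q u = (q - u) / (q - t) * tang q t + (u - t) / (q - t) * tang q q := by
          have : q - t ≠ 0 := by linarith
          unfold tang; field_simp; ring
      _ < (q - u) / (q - t) * g t + (u - t) / (q - t) * g q :=
          add_lt_add_of_lt_of_le (mul_lt_mul_of_pos_left htg hw.1)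
            (mul_le_mul_of_nonneg_left hgq hw.2)
      _ ≤ g u := hc
  · intro t ht
    by_contra hc
    have htq : t < q := ht.2.trans_le ((csInf_le hbdd ⟨ht0, ht0'⟩).trans ht0'.1.le)
    exact (notMem_of_lt_csInf ht.2 hbdd) ⟨⟨ht.1, htq.trans hq⟩, htq, not_le.1 hc⟩

variable {p q : ℝ}

lemma Seg.q_pos (h : Seg g p q) : 0 < q := h.hp.trans_lt h.hpq

lemma Seg.dpath_eq (h : Seg g p q) :
    dpath g q =ᵐ[μI] (Ioo p q).indicator (tang' q) := by
  filter_upwards [ae_mem, ae_ne p] with t ht hne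
  by_cases hm : t ∈ Ioo p q
  · rw [indicator_of_mem hm, dpath, if_pos ⟨hm.2, h.above t hm⟩]
  · rw [indicator_of_notMem hm, dpath, if_neg]
    rintro ⟨htq, htg⟩
    rcases lt_or_gt_of_ne hne with h' | h'
    · exact absurd (h.below t ⟨ht.1, h'⟩) (not_le.2 htg)
    · exact hm ⟨h', htq⟩

lemma indicator_integral (h : Seg g p q) (f : ℝ → ℝ) :
    ∫ t, (Ioo p q).indicator f t ∂μI = ∫ t in p..q, f t := by
  rw [μI, setIntegral_indicator measurableSet_Ioo,
    Set.inter_eq_right.2 (Ioo_subset_Ioo h.hp h.hq.le),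
    intervalIntegral.integral_of_le h.hpq.le, integral_Ioc_eq_integral_Ioo]

lemma Seg.path_low (h : Seg g p q) {t : ℝ} (ht : t ∈ Ioo (0:ℝ) p) : path g q t = g t := by
  rw [path, tstar_of_le (ht.2.trans h.hpq).le]; exact min_eq_left (h.below t ht)

lemma Seg.path_mid (h : Seg g p q) {t : ℝ} (ht : t ∈ Ioo p q) : path g q t = tang q t := by
  rw [path, tstar_of_le ht.2.le]; exact min_eq_right (h.above t ht).le

lemma Seg.path_high (hg : Adm g) (h : Seg g p q) {t : ℝ} (ht : t ∈ Ioo q 1) :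
    path g q t = √(1 - t ^ 2) := by
  have h0 : 0 < t := h.q_pos.trans ht.1
  rw [path, tstar_of_ge ht.1.le (by linarith) ht.2]
  exact min_eq_right (hg.ge t ⟨h0.le, ht.2.le⟩)

lemma Seg.ge_chord (hg : Adm g) (h : Seg g p q) {u : ℝ} (hu : u ∈ Ioo (0:ℝ) p) :
    tang q p ≤ g u ∧ 1 + (tang q p - 1) * (u / p) ≤ g u := by
  have hp0 : 0 < p := hu.1.trans hu.2
  have hIoo : ∀ᶠ t in 𝓝[>] p, t ∈ Ioo p q := Ioo_mem_nhdsGT h.hpq
  have hT : Tendsto (fun t => tang q t) (𝓝[>] p) (𝓝 (tang q p)) :=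
    ((by unfold tang; fun_prop : Continuous fun t => tang q t).tendsto p).mono_left nhdsWithin_le_nhds
  have hu1 : u ∈ Icc (0:ℝ) 1 := ⟨hu.1.le, by linarith [hu.2, h.hpq, h.hq]⟩
  constructor
  · refine le_of_tendsto hT ?_
    filter_upwards [hIoo] with t ht
    exact (h.above t ht).le.trans
      (hg.anti hu1 ⟨by linarith [ht.1], by linarith [ht.2, h.hq]⟩ (by linarith [ht.1, hu.2]))
  · have hlim : Tendsto (fun t => 1 + (tang q t - 1) * (u / t)) (𝓝[>] p)
        (𝓝 (1 + (tang q p - 1) * (u / p))) :=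
      ((hT.sub_const 1).mul (Tendsto.mono_left (tendsto_const_nhds.div tendsto_id hp0.ne')
        nhdsWithin_le_nhds)).const_add 1
    refine le_of_tendsto hlim ?_
    filter_upwards [hIoo] with t ht
    have ht0 : 0 < t := hp0.trans ht.1
    have hw : 0 ≤ u / t ∧ 0 ≤ 1 - u / t :=
      ⟨div_nonneg hu.1.le ht0.le, by rw [sub_nonneg, div_le_one ht0]; linarith [ht.1, hu.2]⟩
    have hc := hg.conc.2 (⟨le_rfl, zero_le_one⟩ : (0:ℝ) ∈ Icc (0:ℝ) 1)
      (⟨ht0.le, by linarith [ht.2, h.hq]⟩ : t ∈ Icc (0:ℝ) 1) hw.2 hw.1 (by ring)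
    simp only [smul_eq_mul, mul_zero, zero_add, div_mul_cancel₀ u ht0.ne'] at hc
    nlinarith [mul_le_mul_of_nonneg_left (h.above t ht).le hw.1,
      mul_le_mul_of_nonneg_left hg.one_le hw.2]

lemma chord_gain (hg : Adm g) (h : Seg g p q) (hp0 : 0 < p) :
    p * (1/6 * (p * p) + 1/2 * (tang q p - 1)) ≤ ∫ t in (0:ℝ)..p, (g t - √(1 - t ^ 2)) := by
  have hp1 : p ≤ 1 := by linarith [h.hpq, h.hq]
  have hgI : IntervalIntegrable g volume 0 p :=
    (hg.anti.mono (by rw [uIcc_of_le hp0.le]; exact Icc_subset_Icc le_rfl hp1)).intervalIntegrable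
  have hsI : IntervalIntegrable (fun t : ℝ => √(1 - t ^ 2)) volume 0 p :=
    (by fun_prop : Continuous fun t : ℝ => √(1 - t ^ 2)).intervalIntegrable 0 p
  have hlow : ∫ t in (0:ℝ)..p, ((1/2) * t ^ 2 + (tang q p - 1) / p * t ^ 1)
      ≤ ∫ t in (0:ℝ)..p, (g t - √(1 - t ^ 2)) := by
    refine ii_mono hp0.le ((ii_pow 0 p 2 _).add (ii_pow 0 p 1 _)) (hgI.sub hsI) ?_
    intro t ht
    have hc := (h.ge_chord hg ht).2
    have hs : √(1 - t ^ 2) ≤ 1 - t ^ 2 / 2 := by
      rw [Real.sqrt_le_left (by nlinarith [ht.1, ht.2])]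
      nlinarith [sq_nonneg (t ^ 2)]
    have : (tang q p - 1) / p * t ^ 1 = (tang q p - 1) * (t / p) := by ring
    linarith [this]
  rw [intervalIntegral.integral_add (ii_pow 0 p 2 _) (ii_pow 0 p 1 _)] at hlow
  simp only [intervalIntegral.integral_const_mul, integral_pow] at hlow
  refine le_trans (le_of_eq ?_) hlow
  norm_num
  field_simp
  ring

lemma integral_dtang (h : Seg g p q) :
    ∫ t in p..q, tang' q t = (q - p) ^ 2 / 2 / √(1 - q ^ 2) ^ 3 := by
  have := ii_sub_left (fun w => (√(1 - q ^ 2) ^ 3)⁻¹ * w ^ 1 + 0 * w ^ 2 + 0 * w ^ 3 + 0 * w ^ 4) p q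
  rw [ii_poly4] at this
  rw [ii_congr (h := fun t => (√(1 - q ^ 2) ^ 3)⁻¹ * (q - t) ^ 1 + 0 * (q - t) ^ 2
    + 0 * (q - t) ^ 3 + 0 * (q - t) ^ 4) h.hpq.le (fun t _ => by unfold tang'; ring), this]
  ring

lemma integral_avg (h : Seg g p q) (x : ℝ) :
    ∫ t in p..q, wgt x t * tang q t * tang' q t
      = avgR √(1 - q ^ 2) q ((q - p) / √(1 - q ^ 2)) x
          * ((q - p) ^ 2 / 2 / √(1 - q ^ 2) ^ 3) := by
  have hq0 := h.q_pos
  set S := √(1 - q ^ 2) with hSd
  have hS : 0 < S := sqrt_pos_of (by linarith) h.hq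
  have hS2 : S ^ 2 = 1 - q ^ 2 := Real.sq_sqrt (by nlinarith [h.hq])
  set C := 7/9 - 2/33 * x with hC
  have key := ii_sub_left (fun w => ((C + 2/3 * q ^ 2) * S / S ^ 3) * w ^ 1
    + (((C + 2/3 * q ^ 2) * q / S - 4/3 * q * S) / S ^ 3) * w ^ 2
    + ((2/3 * S - 4/3 * q ^ 2 / S) / S ^ 3) * w ^ 3 + (2/3 * q / S / S ^ 3) * w ^ 4) p q
  rw [ii_poly4] at key
  rw [ii_congr (h := fun t => ((C + 2/3 * q ^ 2) * S / S ^ 3) * (q - t) ^ 1
    + (((C + 2/3 * q ^ 2) * q / S - 4/3 * q * S) / S ^ 3) * (q - t) ^ 2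
    + ((2/3 * S - 4/3 * q ^ 2 / S) / S ^ 3) * (q - t) ^ 3
    + (2/3 * q / S / S ^ 3) * (q - t) ^ 4) h.hpq.le ?_, key]
  · have hq2 : q ^ 2 = 1 - S ^ 2 := by linarith
    rw [hq2, avgR, UR, ← hC]
    field_simp
    ring
  · intro t _
    have e : t = q - (q - t) := by ring
    have hT : tang q t = S + q * (q - t) / S := by
      conv_lhs => rw [e]
      exact tang_sub hq0.le h.hq
    rw [hT, wgt, tang', ← hSd, hC]
    field_simp
    ring

lemma gain_mid (h : Seg g p q) :
    gRnumR √(1 - q ^ 2) q ((q - p) / √(1 - q ^ 2))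
      ≤ (∫ t in p..q, (tang q t - √(1 - t ^ 2))) *
          denR √(1 - q ^ 2) q ((q - p) / √(1 - q ^ 2))
    ∧ 0 ≤ ∫ t in p..q, (tang q t - √(1 - t ^ 2))
    ∧ 0 < denR √(1 - q ^ 2) q ((q - p) / √(1 - q ^ 2)) := by
  have hq0 := h.q_pos
  set S := √(1 - q ^ 2) with hSd
  have hS : 0 < S := sqrt_pos_of (by linarith) h.hq
  have hS2 : S ^ 2 = 1 - q ^ 2 := Real.sq_sqrt (by nlinarith [h.hq])
  set d := q - p with hd
  have hd0 : 0 < d := by linarith [h.hpq]
  set τ := q - 3/4 * d with hτ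
  have hτ0 : 0 ≤ τ := by linarith [h.hp]
  have hτ1 : τ < 1 := by linarith [h.hq]
  set U := √(1 - τ ^ 2) with hUd
  have hU : 0 < U := sqrt_pos_of (by linarith) hτ1
  have hU2 : U ^ 2 = 1 - τ ^ 2 := Real.sq_sqrt (by nlinarith)
  have hTτ : tang q τ = S + 3/4 * (q * (d / S)) := by
    rw [hτ, tang_sub hq0.le h.hq, ← hSd]; ring
  set T := tang q τ with hTd
  have hTpos : 0 < T := by rw [hTτ]; positivity
  set l := T + U with hl
  have hlpos : 0 < l := by linarith
  set f := fun t => (q - t) ^ 2 / S ^ 2 * (2 / l - (tang q t + tang τ t) / l ^ 2) with hf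
  have hcont : Continuous f := by rw [hf]; unfold tang; fun_prop
  have hint2 : IntervalIntegrable (fun t => tang q t - √(1 - t ^ 2)) volume p q :=
    (by unfold tang; fun_prop : Continuous fun t => tang q t - √(1 - t ^ 2)).intervalIntegrable p q
  have hpt : ∀ t ∈ Ioo p q, f t ≤ tang q t - √(1 - t ^ 2) := by
    intro t ht
    have ht0 : 0 < t := h.hp.trans_lt ht.1
    have ht1 : t < 1 := ht.2.trans h.hq
    have hs2 : √(1 - t ^ 2) ^ 2 = 1 - t ^ 2 := Real.sq_sqrt (by nlinarith)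
    set s := √(1 - t ^ 2)
    have hs0 : 0 < s := sqrt_pos_of (by linarith) ht1
    have hTs : s ≤ tang q t := sqrt_le_tang (by linarith) h.hq (by nlinarith [h.hq])
    have hts : s ≤ tang τ t := sqrt_le_tang (by linarith) hτ1 (by nlinarith)
    have hprod : (tang q t - s) * (tang q t + s) = (q - t) ^ 2 / S ^ 2 := by
      have : (tang q t - s) * (tang q t + s) = tang q t ^ 2 - s ^ 2 := by ring
      rw [this, hs2, tang, ← hSd]
      field_simp
      rw [hS2]; ring
    set L := tang q t + tang τ t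
    have hL : 0 < L := by linarith
    have h1 : (q - t) ^ 2 / S ^ 2 / L ≤ tang q t - s := by
      rw [div_le_iff₀ hL, ← hprod]
      exact mul_le_mul_of_nonneg_left (by linarith) (by linarith)
    have h2 : 2 / l - L / l ^ 2 ≤ 1 / L := by
      rw [div_sub_div _ _ hlpos.ne' (by positivity), div_le_div_iff₀ (by positivity) hL]
      nlinarith [mul_nonneg hlpos.le (sq_nonneg (l - L))]
    calc f t ≤ (q - t) ^ 2 / S ^ 2 * (1 / L) :=
          mul_le_mul_of_nonneg_left h2 (by positivity)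
      _ = (q - t) ^ 2 / S ^ 2 / L := by ring
      _ ≤ _ := h1
  have hI : ∫ t in p..q, f t = d ^ 3 / (3 * S ^ 2 * l) := by
    have key := ii_sub_left (fun w => 0 * w ^ 1
      + ((2 / l - (S + (1 - τ * q) / U) / l ^ 2) / S ^ 2) * w ^ 2
      + ((-(q / S + τ / U) / l ^ 2) / S ^ 2) * w ^ 3 + 0 * w ^ 4) p q
    rw [ii_poly4] at key
    rw [ii_congr (h := fun t => 0 * (q - t) ^ 1
      + ((2 / l - (S + (1 - τ * q) / U) / l ^ 2) / S ^ 2) * (q - t) ^ 2
      + ((-(q / S + τ / U) / l ^ 2) / S ^ 2) * (q - t) ^ 3 + 0 * (q - t) ^ 4) h.hpq.le ?_, key]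
    · have e1 : S + (1 - τ * q) / U + 3/4 * d * (q / S + τ / U) = l := by
        rw [hl, hTτ]
        have hτ' : 3/4 * d = q - τ := by linarith
        rw [hτ']
        field_simp
        linear_combination (-4 * S) * hU2
      rw [← hd]
      have e2 : S + (1 - τ * q) / U = l - 3/4 * d * (q / S + τ / U) := by linarith
      rw [e2]
      field_simp
      ring
    · intro t _
      have e : t = q - (q - t) := by ring
      have hT : tang q t = S + q * (q - t) / S := by
        conv_lhs => rw [e]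
        exact tang_sub hq0.le h.hq
      rw [hf]
      simp only
      rw [hT, tang, ← hUd]
      field_simp
      ring
  have hB : d ^ 3 / (3 * S ^ 2 * l) ≤ ∫ t in p..q, (tang q t - √(1 - t ^ 2)) := by
    rw [← hI]; exact ii_mono h.hpq.le (hcont.intervalIntegrable p q) hint2 hpt
  have hB0 : 0 ≤ ∫ t in p..q, (tang q t - √(1 - t ^ 2)) :=
    le_trans (by positivity) hB
  set B := ∫ t in p..q, (tang q t - √(1 - t ^ 2))
  have hden : T * l ≤ denR S q (d / S) := by
    have hdiff : T ^ 2 - U ^ 2 = 9/16 * (d / S) ^ 2 := by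
      have hτ' : 3/4 * d = q - τ := by linarith
      rw [hTτ, hU2]
      field_simp
      have hS4 : S ^ 4 = (1 - q ^ 2) ^ 2 := by rw [← hS2]; ring
      rw [hτ]
      linear_combination (256 * S ^ 2 + 144 * d ^ 2) * hS2
    unfold denR TR
    rw [← hTτ, hl]
    nlinarith [sq_nonneg (T - U)]
  have hTl : 0 < T * l := mul_pos hTpos hlpos
  refine ⟨?_, hB0, hTl.trans_le hden⟩
  calc gRnumR S q (d / S) = d ^ 3 / (3 * S ^ 2 * l) * (T * l) := by
        unfold gRnumR TR
        rw [← hTτ]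
        field_simp
    _ ≤ B * denR S q (d / S) := mul_le_mul hB hden hTl.le hB0

lemma mass_bound (hg : Adm g) (h : Seg g p q) :
    ∃ A B : ℝ, (∫ t, path g q t ∂μI) = π / 4 + (A + B) ∧ 0 ≤ A ∧
      gLR √(1 - q ^ 2) q ((q - p) / √(1 - q ^ 2)) ≤ A ∧
      B = ∫ t in p..q, (tang q t - √(1 - t ^ 2)) := by
  have hq1 := h.hq
  have hq0 := h.q_pos
  set S := √(1 - q ^ 2) with hSd
  have hS : 0 < S := sqrt_pos_of (by linarith) hq1
  have hS2 : S ^ 2 = 1 - q ^ 2 := Real.sq_sqrt (by nlinarith)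
  set d := q - p with hd
  have hd0 : 0 < d := by linarith [h.hpq]
  set m := d / S with hm
  -- integrability
  have hpI : ∀ a b, 0 ≤ a → a ≤ b → b ≤ 1 → IntervalIntegrable (path g q) volume a b := by
    intro a b ha hab hb
    rw [intervalIntegrable_iff_integrableOn_Ioo_of_le hab]
    exact IntegrableOn.mono_set (integrable_path hg hq1) (Ioo_subset_Ioo ha hb)
  have hgI : ∀ a b, 0 ≤ a → a ≤ b → b ≤ 1 → IntervalIntegrable g volume a b := by
    intro a b ha hab hb
    exact (hg.anti.mono (by rw [uIcc_of_le hab]; exact Icc_subset_Icc ha hb)).intervalIntegrable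
  have hg2I : ∀ a b, 0 ≤ a → a ≤ b → b ≤ 1 → IntervalIntegrable (fun t => g t ^ 2) volume a b := by
    intro a b ha hab hb
    refine AntitoneOn.intervalIntegrable ?_
    rw [uIcc_of_le hab]
    intro u hu v hv huv
    exact pow_le_pow_left₀ (hg.nonneg (Icc_subset_Icc ha hb hv))
      (hg.anti (Icc_subset_Icc ha hb hu) (Icc_subset_Icc ha hb hv) huv) 2
  have hsI : ∀ a b, IntervalIntegrable (fun t : ℝ => √(1 - t ^ 2)) volume a b := fun a b =>
    (by fun_prop : Continuous fun t : ℝ => √(1 - t ^ 2)).intervalIntegrable a b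
  have hs2I : ∀ a b, IntervalIntegrable (fun t : ℝ => 1 - t ^ 2) volume a b := fun a b =>
    (by fun_prop : Continuous fun t : ℝ => 1 - t ^ 2).intervalIntegrable a b
  have hTI : ∀ a b, IntervalIntegrable (tang q) volume a b := fun a b =>
    (by unfold tang; fun_prop : Continuous (tang q)).intervalIntegrable a b
  have hT2I : ∀ a b, IntervalIntegrable (fun t => tang q t ^ 2) volume a b := fun a b =>
    (by unfold tang; fun_prop : Continuous fun t => tang q t ^ 2).intervalIntegrable a b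
  have hpq := h.hpq.le
  have hp1 : p ≤ 1 := by linarith
  -- the mass
  set A := ∫ t in (0:ℝ)..p, (g t - √(1 - t ^ 2)) with hA
  set B := ∫ t in p..q, (tang q t - √(1 - t ^ 2)) with hB
  have eJ : ∫ t, path g q t ∂μI = π / 4 + (A + B) := by
    rw [muI_integral, ← intervalIntegral.integral_add_adjacent_intervals
        (hpI 0 p le_rfl h.hp hp1) (hpI p 1 h.hp hp1 le_rfl),
      ← intervalIntegral.integral_add_adjacent_intervals
        (hpI p q h.hp hpq hq1.le) (hpI q 1 hq0.le hq1.le le_rfl),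
      ii_congr h.hp (fun t ht => h.path_low ht), ii_congr hpq (fun t ht => h.path_mid ht),
      ii_congr hq1.le (fun t ht => h.path_high hg ht),
      hA, hB, intervalIntegral.integral_sub (hgI 0 p le_rfl h.hp hp1) (hsI _ _),
      intervalIntegral.integral_sub (hTI _ _) (hsI _ _), ← ii_sqrt,
      ← intervalIntegral.integral_add_adjacent_intervals (hsI 0 p) (hsI p 1),
      ← intervalIntegral.integral_add_adjacent_intervals (hsI p q) (hsI q 1)]
    ring
  set y := tang q p with hy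
  have hy_eq : y = S + q * m := by
    have : p = q - d := by linarith
    rw [hy, this, tang_sub hq0.le hq1, ← hSd, hm]; ring
  have hy0 : 0 ≤ y := by rw [hy_eq]; positivity
  have hpR : pR S q m = p := by
    rw [pR, hm, div_mul_cancel₀ _ hS.ne']; linarith
  have hA0 : 0 ≤ A := intervalIntegral.integral_nonneg h.hp fun t ht =>
    sub_nonneg.2 (hg.ge t ⟨ht.1, ht.2.trans hp1⟩)
  have hA1 : gLR S q m ≤ A := by
    rw [gLR, hpR, ← hy_eq]
    rcases h.hp.eq_or_lt with hp0 | hp0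
    · rw [← hp0]; simpa using hA0
    exact chord_gain hg h hp0
  exact ⟨A, B, eJ, hA0, hA1, rfl⟩

lemma moment_bound (hg : Adm g) (h : Seg g p q) {x : ℝ}
    (hx : x = 3/2 * ((∫ t in (0:ℝ)..1, g t ^ 2) - 2/3)) :
    x0R √(1 - q ^ 2) ((q - p) / √(1 - q ^ 2)) ≤ x ∧
      x0R √(1 - q ^ 2) ((q - p) / √(1 - q ^ 2))
        + 3/2 * MGR √(1 - q ^ 2) q ((q - p) / √(1 - q ^ 2)) ≤ x := by
  have hq1 := h.hq
  have hq0 := h.q_pos
  set S := √(1 - q ^ 2) with hSd
  have hS : 0 < S := sqrt_pos_of (by linarith) hq1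
  have hS2 : S ^ 2 = 1 - q ^ 2 := Real.sq_sqrt (by nlinarith)
  set d := q - p with hd
  have hd0 : 0 < d := by linarith [h.hpq]
  set m := d / S with hm
  -- integrability
  have hpI : ∀ a b, 0 ≤ a → a ≤ b → b ≤ 1 → IntervalIntegrable (path g q) volume a b := by
    intro a b ha hab hb
    rw [intervalIntegrable_iff_integrableOn_Ioo_of_le hab]
    exact IntegrableOn.mono_set (integrable_path hg hq1) (Ioo_subset_Ioo ha hb)
  have hgI : ∀ a b, 0 ≤ a → a ≤ b → b ≤ 1 → IntervalIntegrable g volume a b := by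
    intro a b ha hab hb
    exact (hg.anti.mono (by rw [uIcc_of_le hab]; exact Icc_subset_Icc ha hb)).intervalIntegrable
  have hg2I : ∀ a b, 0 ≤ a → a ≤ b → b ≤ 1 → IntervalIntegrable (fun t => g t ^ 2) volume a b := by
    intro a b ha hab hb
    refine AntitoneOn.intervalIntegrable ?_
    rw [uIcc_of_le hab]
    intro u hu v hv huv
    exact pow_le_pow_left₀ (hg.nonneg (Icc_subset_Icc ha hb hv))
      (hg.anti (Icc_subset_Icc ha hb hu) (Icc_subset_Icc ha hb hv) huv) 2
  have hsI : ∀ a b, IntervalIntegrable (fun t : ℝ => √(1 - t ^ 2)) volume a b := fun a b =>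
    (by fun_prop : Continuous fun t : ℝ => √(1 - t ^ 2)).intervalIntegrable a b
  have hs2I : ∀ a b, IntervalIntegrable (fun t : ℝ => 1 - t ^ 2) volume a b := fun a b =>
    (by fun_prop : Continuous fun t : ℝ => 1 - t ^ 2).intervalIntegrable a b
  have hTI : ∀ a b, IntervalIntegrable (tang q) volume a b := fun a b =>
    (by unfold tang; fun_prop : Continuous (tang q)).intervalIntegrable a b
  have hT2I : ∀ a b, IntervalIntegrable (fun t => tang q t ^ 2) volume a b := fun a b =>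
    (by unfold tang; fun_prop : Continuous fun t => tang q t ^ 2).intervalIntegrable a b
  have hpq := h.hpq.le
  have hp1 : p ≤ 1 := by linarith
  have hpq := h.hpq.le
  have hp1 : p ≤ 1 := by linarith
  set y := tang q p with hy
  have hy_eq : y = S + q * m := by
    have : p = q - d := by linarith
    rw [hy, this, tang_sub hq0.le hq1, ← hSd, hm]; ring
  have hy0 : 0 ≤ y := by rw [hy_eq]; positivity
  have hpR : pR S q m = p := by
    rw [pR, hm, div_mul_cancel₀ _ hS.ne']; linarith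
  set P := ∫ t in (0:ℝ)..p, (g t ^ 2 - (1 - t ^ 2)) with hP
  have eM : 2/3 + P + (∫ t in p..q, (tang q t ^ 2 - (1 - t ^ 2)))
      ≤ ∫ t in (0:ℝ)..1, g t ^ 2 := by
    have e23 : ∫ t in (0:ℝ)..1, (1 - t ^ 2) = 2/3 := by
      rw [intervalIntegral.integral_sub intervalIntegrable_const
        ((by fun_prop : Continuous fun t : ℝ => t ^ 2).intervalIntegrable 0 1), integral_pow]
      simp; norm_num
    rw [← intervalIntegral.integral_add_adjacent_intervals
        (hg2I 0 p le_rfl h.hp hp1) (hg2I p 1 h.hp hp1 le_rfl),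
      ← intervalIntegral.integral_add_adjacent_intervals
        (hg2I p q h.hp hpq hq1.le) (hg2I q 1 hq0.le hq1.le le_rfl),
      hP, intervalIntegral.integral_sub (hg2I 0 p le_rfl h.hp hp1) (hs2I _ _),
      intervalIntegral.integral_sub (hT2I _ _) (hs2I _ _), ← e23,
      ← intervalIntegral.integral_add_adjacent_intervals (hs2I 0 p) (hs2I p 1),
      ← intervalIntegral.integral_add_adjacent_intervals (hs2I p q) (hs2I q 1)]
    have m1 : ∫ t in p..q, tang q t ^ 2 ≤ ∫ t in p..q, g t ^ 2 :=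
      ii_mono hpq (hT2I _ _) (hg2I p q h.hp hpq hq1.le) fun t ht =>
        pow_le_pow_left₀ ((Real.sqrt_nonneg _).trans (sqrt_le_tang (by linarith) hq1
          (by nlinarith [ht.2, h.hp, ht.1]))) (h.above t ht).le 2
    have m2 : ∫ t in q..1, (1 - t ^ 2) ≤ ∫ t in q..1, g t ^ 2 :=
      ii_mono hq1.le (hs2I _ _) (hg2I q 1 hq0.le hq1.le le_rfl) fun t ht => by
        have h' := hg.ge t ⟨(hq0.trans ht.1).le, ht.2.le⟩
        have h'' := Real.sq_sqrt (by nlinarith [ht.1, ht.2] : (0:ℝ) ≤ 1 - t ^ 2)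
        nlinarith [Real.sqrt_nonneg (1 - t ^ 2)]
    linarith
  have eT : ∫ t in p..q, (tang q t ^ 2 - (1 - t ^ 2)) = m ^ 3 * S / 3 := by
    have key := ii_sub_left (fun w => 0 * w ^ 1 + (1 / S ^ 2) * w ^ 2 + 0 * w ^ 3 + 0 * w ^ 4) p q
    rw [ii_poly4] at key
    rw [ii_congr (h := fun t => 0 * (q - t) ^ 1 + (1 / S ^ 2) * (q - t) ^ 2
      + 0 * (q - t) ^ 3 + 0 * (q - t) ^ 4) hpq ?_, key]
    · rw [← hd, hm]; field_simp; ring
    · intro t _
      rw [tang, ← hSd]
      field_simp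
      rw [hS2]; ring
  have hP0 : 0 ≤ P := intervalIntegral.integral_nonneg h.hp fun t ht => by
    have h' := hg.ge t ⟨ht.1, ht.2.trans hp1⟩
    have h'' := Real.sq_sqrt (by nlinarith [ht.1, ht.2] : (0:ℝ) ≤ 1 - t ^ 2)
    nlinarith [Real.sqrt_nonneg (1 - t ^ 2)]
  have hP1 : MGR S q m ≤ P := by
    rw [MGR, hpR, ← hy_eq]
    have hlow : ∫ t in (0:ℝ)..p, ((y * y - 1) + t ^ 2) ≤ P := by
      refine ii_mono h.hp ((by fun_prop : Continuous _).intervalIntegrable _ _)
        ((hg2I 0 p le_rfl h.hp hp1).sub (hs2I _ _)) fun t ht => ?_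
      have hc := (h.ge_chord hg ht).1
      nlinarith
    rw [intervalIntegral.integral_add intervalIntegrable_const
      ((by fun_prop : Continuous fun t : ℝ => t ^ 2).intervalIntegrable 0 p),
      intervalIntegral.integral_const, integral_pow] at hlow
    refine le_trans (le_of_eq ?_) hlow
    norm_num
    ring
  rw [eT] at eM
  unfold x0R
  constructor <;> linarith

lemma dphi_nonneg (hg : Adm g) {x q : ℝ} (hq1 : q < 1)
    (hx : x = 3/2 * ((∫ t in (0:ℝ)..1, g t ^ 2) - 2/3))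
    (hxM : 2/3 + 2/3 * x ≤ 14345/10000) : 0 ≤ dphi g x q := by
  by_cases hE : ∃ t ∈ Ioo (0:ℝ) 1, t < q ∧ tang q t < g t
  swap
  · have h0 : dpath g q =ᵐ[μI] 0 := by
      filter_upwards [ae_mem] with t ht
      exact if_neg fun hc => hE ⟨t, ht, hc⟩
    have h1 : (fun t => 2 * (wgt x t * path g q t * dpath g q t)) =ᵐ[μI] 0 := by
      filter_upwards [h0] with t ht
      simp only [Pi.zero_apply] at ht ⊢
      rw [ht]; ring
    rw [dphi, integral_congr_ae h0, integral_congr_ae h1]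
    simp
  obtain ⟨p, h⟩ := exists_seg hg hq1 hE
  have hq0 := h.q_pos
  set S := √(1 - q ^ 2) with hSd
  have hS : 0 < S := sqrt_pos_of (by linarith) hq1
  have hS2 : S ^ 2 = 1 - q ^ 2 := Real.sq_sqrt (by nlinarith)
  set d := q - p with hd
  have hd0 : 0 < d := by linarith [h.hpq]
  set m := d / S with hm
  -- the derivative
  have e1 : ∫ t, dpath g q t ∂μI = d ^ 2 / 2 / S ^ 3 := by
    rw [integral_congr_ae h.dpath_eq, indicator_integral h, integral_dtang h]
  have e2 : ∫ t, 2 * (wgt x t * path g q t * dpath g q t) ∂μI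
      = 2 * (avgR S q m x * (d ^ 2 / 2 / S ^ 3)) := by
    rw [integral_const_mul]
    have : (fun t => wgt x t * path g q t * dpath g q t)
        =ᵐ[μI] (Ioo p q).indicator (fun t => wgt x t * tang q t * tang' q t) := by
      filter_upwards [h.dpath_eq] with t ht
      rw [ht]
      by_cases hmem : t ∈ Ioo p q
      · rw [indicator_of_mem hmem, indicator_of_mem hmem, h.path_mid hmem]
      · rw [indicator_of_notMem hmem, indicator_of_notMem hmem, mul_zero]
    rw [integral_congr_ae this, indicator_integral h, integral_avg h x]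
  obtain ⟨A, B, eJ, hA0, hA1, hB⟩ := mass_bound hg h
  obtain ⟨hBden, hB0, hden⟩ := gain_mid h
  rw [← hB] at hBden hB0
  rw [← hSd, ← hd, ← hm] at hA1 hBden hden
  have hlowsq := moment_bound hg h hx
  rw [← hSd, ← hd, ← hm] at hlowsq
  have hpR : pR S q m = p := by
    rw [pR, hm, div_mul_cancel₀ _ hS.ne']; linarith
  have hstage := stage_ineq (S := S) (q := q) (m := m) (x := x) (G := A + B)
    { hS := hS, hq := hq0.le, hsq := by rw [hS2]; ring, hm := div_nonneg hd0.le hS.le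
      hp := by rw [hpR]; exact h.hp
      hx0 := hlowsq.1, hx1 := hlowsq.2, hxM := hxM
      hG0 := add_nonneg hA0 hB0, hG1 := by linarith
      hG2 := by rw [add_mul]; exact add_le_add (mul_le_mul_of_nonneg_right hA1 hden.le) hBden }
  have hpi := Real.pi_pos
  have hr : (10807:ℝ)/10000 ≤ 32 / (3 * π ^ 2) := by
    rw [div_le_div_iff₀ (by norm_num) (by positivity)]
    nlinarith [Real.pi_lt_d6, Real.pi_gt_d6]
  have hj : (8488:ℝ)/10000 ≤ 32 / (3 * π ^ 2) * (π / 4) := by
    have : 32 / (3 * π ^ 2) * (π / 4) = 8 / (3 * π) := by field_simp; ring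
    rw [this, div_le_div_iff₀ (by norm_num) (by positivity)]
    nlinarith [Real.pi_lt_d6]
  have hfin : avgR S q m x ≤ 32 / (3 * π ^ 2) * (π / 4 + (A + B)) := by
    have := mul_le_mul_of_nonneg_right hr (add_nonneg hA0 hB0)
    rw [mul_add]
    linarith
  rw [dphi, e1, e2, eJ]
  have hw : 0 ≤ d ^ 2 / 2 / S ^ 3 := by positivity
  nlinarith [mul_le_mul_of_nonneg_right hfin hw]

end Vale.Agent.P237.Profile
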