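import Vale.Agent.P237.Profile.Cert

/-!
# The stage inequality
-/

namespace Vale.Agent.P237.Stage

lemma quad_upper {X l qx sc sx K : ℝ} (hX : |X| ≤ 1)
    (h1 : (l + qx) * (l + qx) + (sc + sx) * (sc + sx) ≤ K)
    (h2 : (l - qx) * (l - qx) + (sc - sx) * (sc - sx) ≤ K) :
    (l + qx * X) ^ 2 + (sc + sx * X) ^ 2 ≤ K := by
  have hX' := abs_le.1 hX
  have e : (l + qx * X) ^ 2 + (sc + sx * X) ^ 2
      = (1 + X) / 2 * ((l + qx) * (l + qx) + (sc + sx) * (sc + sx))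
        + (1 - X) / 2 * ((l - qx) * (l - qx) + (sc - sx) * (sc - sx))
        - (1 - X ^ 2) * (qx * qx + sx * sx) := by ring
  have a1 := mul_le_mul_of_nonneg_left h1 (by linarith : (0:ℝ) ≤ (1 + X) / 2)
  have a2 := mul_le_mul_of_nonneg_left h2 (by linarith : (0:ℝ) ≤ (1 - X) / 2)
  have a3 : 0 ≤ (1 - X ^ 2) * (qx * qx + sx * sx) :=
    mul_nonneg (by nlinarith) (by nlinarith [mul_self_nonneg qx, mul_self_nonneg sx])
  rw [e]
  linarith

lemma quad_lower {u qx : ℝ} (sc sx K X : ℝ) (hg : 0 ≤ u * u + sc * sc - K)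
    (hd : (2 * (u * qx + sc * sx)) * (2 * (u * qx + sc * sx))
      ≤ 4 * (qx * qx + sx * sx) * (u * u + sc * sc - K)) :
    K ≤ (u + qx * X) ^ 2 + (sc + sx * X) ^ 2 := by
  have e : (u + qx * X) ^ 2 + (sc + sx * X) ^ 2 - K
      = (qx * qx + sx * sx) * X ^ 2 + (2 * (u * qx + sc * sx)) * X + (u * u + sc * sc - K) := by
    ring
  have key : ∀ a b g : ℝ, 0 ≤ a → 0 ≤ g → b * b ≤ 4 * a * g → 0 ≤ a * X ^ 2 + b * X + g := by
    intro a b g ha hg hb
    rcases ha.eq_or_lt with rfl | ha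
    · have : b = 0 := mul_self_eq_zero.1 (le_antisymm (by linarith) (mul_self_nonneg b))
      rw [this]; linarith
    · have e2 : 4 * a * (a * X ^ 2 + b * X + g) = (2 * a * X + b) ^ 2 + (4 * a * g - b * b) := by
        ring
      have : 0 ≤ 4 * a * (a * X ^ 2 + b * X + g) := by rw [e2]; nlinarith [sq_nonneg (2 * a * X + b)]
      exact nonneg_of_mul_nonneg_right this (by linarith)
  have := key _ _ _ (add_nonneg (mul_self_nonneg qx) (mul_self_nonneg sx)) hg hd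
  linarith

/-- Soundness of the enclosure of `√(1-S²)` by a line. -/
lemma rep_sqrt {A B qc qx qe : ℤ} {X q S : ℝ} (hX : |X| ≤ 1) (hAB : (A + B) % 2 = 0)
    (hBA : (B - A) % 2 = 0)
    (h1 : (qc - qe + qx) * (qc - qe + qx) + B * B ≤ N * N)
    (h2 : (qc - qe - qx) * (qc - qe - qx) + A * A ≤ N * N)
    (hu : |qx| ≤ qc + qe) (hg : 0 ≤ (qc + qe) * (qc + qe) + (A + B) / 2 * ((A + B) / 2) - N * N)
    (hd : (2 * ((qc + qe) * qx + (A + B) / 2 * ((B - A) / 2))) *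
        (2 * ((qc + qe) * qx + (A + B) / 2 * ((B - A) / 2)))
      ≤ 4 * (qx * qx + (B - A) / 2 * ((B - A) / 2)) *
        ((qc + qe) * (qc + qe) + (A + B) / 2 * ((A + B) / 2) - N * N))
    (hS : S * N = (((A + B) / 2 : ℤ) : ℝ) + (((B - A) / 2 : ℤ) : ℝ) * X)
    (hq : 0 ≤ q) (hsq : q ^ 2 + S ^ 2 = 1) :
    Rep ⟨qc, qx, 0, qe⟩ X 0 q := by
  obtain ⟨sc, hsc⟩ : ∃ sc, sc = (A + B) / 2 := ⟨_, rfl⟩
  obtain ⟨sx, hsx⟩ : ∃ sx, sx = (B - A) / 2 := ⟨_, rfl⟩
  rw [← hsc, ← hsx] at hd hS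
  rw [← hsc] at hg
  have hB : B = sc + sx := by omega
  have hA : A = sc - sx := by omega
  subst hB hA
  have hX' := abs_le.1 hX
  have hN := N_cast_pos
  have hqN : (q * N) ^ 2 + (S * N) ^ 2 = (N:ℝ) ^ 2 := by
    have : (q * N) ^ 2 + (S * N) ^ 2 = (N:ℝ) ^ 2 * (q ^ 2 + S ^ 2) := by ring
    rw [this, hsq, mul_one]
  have hqN0 : 0 ≤ q * N := mul_nonneg hq hN.le
  have h1' : ((qc:ℝ) - qe + qx) * (qc - qe + qx) + ((sc:ℝ) + sx) * (sc + sx) ≤ (N:ℝ) * N := by
    exact_mod_cast h1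
  have h2' : ((qc:ℝ) - qe - qx) * (qc - qe - qx) + ((sc:ℝ) - sx) * (sc - sx) ≤ (N:ℝ) * N := by
    exact_mod_cast h2
  have hu' : |(qx:ℝ)| ≤ (qc:ℝ) + qe := by exact_mod_cast hu
  have hg' : (0:ℝ) ≤ ((qc:ℝ) + qe) * (qc + qe) + sc * sc - (N:ℝ) * N := by exact_mod_cast hg
  have hd' : (2 * (((qc:ℝ) + qe) * qx + sc * sx)) * (2 * ((qc + qe) * qx + sc * sx))
      ≤ 4 * ((qx:ℝ) * qx + sx * sx) * (((qc:ℝ) + qe) * (qc + qe) + sc * sc - (N:ℝ) * N) := by
    exact_mod_cast hd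
  have lower := quad_upper hX h1' h2'
  have upper := quad_lower ((sc:ℝ)) (sx:ℝ) ((N:ℝ) * N) X hg' hd'
  have lo' : ((qc:ℝ) - qe + qx * X) ^ 2 ≤ (q * N) ^ 2 := by
    rw [hS] at hqN; linarith [lower, sq (N:ℝ)]
  have hpos : 0 ≤ (qc:ℝ) + qe + qx * X := by
    have : |(qx:ℝ) * X| ≤ |(qx:ℝ)| := by
      rw [abs_mul]; exact mul_le_of_le_one_right (abs_nonneg _) hX
    linarith [(abs_le.1 this).1]
  have up' : (q * N) ^ 2 ≤ ((qc:ℝ) + qe + qx * X) ^ 2 := by
    rw [hS] at hqN; linarith [upper, sq (N:ℝ)]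
  have a1 := (abs_le_of_sq_le_sq' lo' hqN0).2
  have a2 := (abs_le_of_sq_le_sq' up' hpos).2
  unfold Rep
  rw [abs_le]
  push_cast
  constructor <;> linarith

/-- The hypotheses of a stage. -/
structure Hyp (S q m x G : ℝ) : Prop where
  hS : 0 < S
  hq : 0 ≤ q
  hsq : q ^ 2 + S ^ 2 = 1
  hm : 0 ≤ m
  hp : 0 ≤ pR S q m
  hx0 : x0R S m ≤ x
  hx1 : x0R S m + 3/2 * MGR S q m ≤ x
  hxM : 2/3 + 2/3 * x ≤ 14345/10000
  hG0 : 0 ≤ G
  hG1 : gLR S q m ≤ G
  hG2 : gLR S q m * denR S q m + gRnumR S q m ≤ G * denR S q m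

lemma UR_nonneg {S q m x G : ℝ} (h : Hyp S q m x G) : 0 ≤ UR S q m := by
  unfold UR; nlinarith [h.hS, mul_nonneg h.hq h.hm]

lemma avgR_anti {S q m x x' G : ℝ} (h : Hyp S q m x G) (hx : x' ≤ x) :
    avgR S q m x ≤ avgR S q m x' := by
  unfold avgR
  nlinarith [mul_le_mul_of_nonneg_right hx (UR_nonneg h)]

lemma den_pos {S q m : ℝ}
    (h : ((1:ℤ):ℝ) / N ≤ 2 * ((S + 3/4 * (q * m)) * (S + 3/4 * (q * m))) - 9/32 * (m * m)) :
    0 < denR S q m := by
  have h1N : (0:ℝ) < ((1:ℤ):ℝ) / N := div_pos (by norm_num) N_cast_pos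
  unfold denR TR
  linarith

lemma concl_B {S q m x G x' b : ℝ} (h : Hyp S q m x G) (hx : x' ≤ x) (hb : 0 ≤ b)
    (he : b = 10807/10000 * gLR S q m + 8488/10000 - avgR S q m x') :
    avgR S q m x ≤ 8488/10000 + 10807/10000 * G := by
  have := avgR_anti h hx
  linarith [h.hG1]

lemma concl_G {S q m x G x' b d n : ℝ} (h : Hyp S q m x G) (hx : x' ≤ x)
    (hd : 0 < denR S q m) (hb : 0 ≤ b * d + n)
    (he : b = 10807/10000 * gLR S q m + 8488/10000 - avgR S q m x')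
    (hn : n = 10807/10000 * gRnumR S q m) (hde : d = denR S q m) :
    avgR S q m x ≤ 8488/10000 + 10807/10000 * G := by
  have := avgR_anti h hx
  rw [he, hn, hde] at hb
  have h2 := mul_le_mul_of_nonneg_left h.hG2 (by norm_num : (0:ℝ) ≤ 10807/10000)
  have : 0 ≤ (8488/10000 + 10807/10000 * G - avgR S q m x') * denR S q m := by linarith
  linarith [nonneg_of_mul_nonneg_left this hd]

lemma b0_eq (S q m : ℝ) :
    10807/10000 * ((q - m * S) * (1/6 * ((q - m * S) * (q - m * S)) + 1/2 * (S + q * m - 1)))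
        + 8488/10000
      - 2/3 * (S * (1 - S * S) + 2/3 * (q * m * (1 - 3 * (S * S)))
        + (1/2 * (m * m * S * (3 * (S * S) - 2)) + 2/5 * (m * m * m * q * (S * S))))
      + (S + 2/3 * (q * m)) * (2/33 * (1/2 * (m * m * m * S)) - 7/9)
    = 10807/10000 * gLR S q m + 8488/10000 - avgR S q m (x0R S m) := by
  unfold gLR avgR x0R UR pR; ring

lemma b1_eq (S q m : ℝ) :
    10807/10000 * ((q - m * S) * (1/6 * ((q - m * S) * (q - m * S)) + 1/2 * (S + q * m - 1)))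
        + 8488/10000
      - 2/3 * (S * (1 - S * S) + 2/3 * (q * m * (1 - 3 * (S * S)))
        + (1/2 * (m * m * S * (3 * (S * S) - 2)) + 2/5 * (m * m * m * q * (S * S))))
      + (S + 2/3 * (q * m)) * (2/33 * (1/2 * (m * m * m * S)) - 7/9)
      + (S + 2/3 * (q * m)) * (1/11 * ((q - m * S) * ((S + q * m) * (S + q * m) - 1
          + 1/3 * ((q - m * S) * (q - m * S)))))
    = 10807/10000 * gLR S q m + 8488/10000 - avgR S q m (x0R S m + 3/2 * MGR S q m) := by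
  unfold gLR avgR x0R MGR UR pR; ring

lemma num_eq (S q m : ℝ) :
    1/3 * (10807/10000) * (m * m * m * S * (S + 3/4 * (q * m)))
      = 10807/10000 * gRnumR S q m := by
  unfold gRnumR TR; ring

lemma den_eq (S q m : ℝ) :
    2 * ((S + 3/4 * (q * m)) * (S + 3/4 * (q * m))) - 9/32 * (m * m) = denR S q m := by
  unfold denR TR; ring

lemma leaf_sound {A B C D qc qx qe : ℤ} {S q m x G X Y : ℝ} (hX : |X| ≤ 1) (hY : |Y| ≤ 1)
    (hS : S * N = (((A + B) / 2 : ℤ) : ℝ) + (((B - A) / 2 : ℤ) : ℝ) * X)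
    (hm : m * N = (((C + D) / 2 : ℤ) : ℝ) + (((D - C) / 2 : ℤ) : ℝ) * Y)
    (hok : leafOK A B C D qc qx qe = true) (h : Hyp S q m x G) :
    avgR S q m x ≤ 8488/10000 + 10807/10000 * G := by
  unfold leafOK at hok
  simp only [Bool.and_eq_true, Bool.or_eq_true, decide_eq_true_eq] at hok
  obtain ⟨⟨⟨⟨⟨hAB, hBA, -, -⟩, h1⟩, h2⟩, hu, hg, hd⟩, hcase⟩ := hok
  have rS : Rep ⟨(A + B) / 2, (B - A) / 2, 0, 0⟩ X Y S := by
    unfold Rep; rw [hS]; simp
  have rm : Rep ⟨(C + D) / 2, 0, (D - C) / 2, 0⟩ X Y m := by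
    unfold Rep; rw [hm]; simp
  have rq : Rep ⟨qc, qx, 0, qe⟩ X Y q := by
    have := rep_sqrt hX hAB hBA h1 h2 hu hg hd hS h.hq h.hsq
    unfold Rep at this ⊢
    simpa using this
  have k : ∀ n d : ℤ, 0 < d → Rep (cst n d) X Y ((n:ℝ) / d) := fun n d hd => rep_const n d hd
  have one : Rep (cst 1 1) X Y 1 := by simpa using k 1 1 one_pos
  have three : Rep (cst 3 1) X Y 3 := by simpa using k 3 1 one_pos
  have two : Rep (cst 2 1) X Y 2 := by simpa using k 2 1 one_pos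
  have c34 : Rep (cst 3 4) X Y (3/4) := by simpa using k 3 4 (by norm_num)
  have c16 : Rep (cst 1 6) X Y (1/6) := by simpa using k 1 6 (by norm_num)
  have c12 : Rep (cst 1 2) X Y (1/2) := by simpa using k 1 2 (by norm_num)
  have c13 : Rep (cst 1 3) X Y (1/3) := by simpa using k 1 3 (by norm_num)
  have c23 : Rep (cst 2 3) X Y (2/3) := by simpa using k 2 3 (by norm_num)
  have c25 : Rep (cst 2 5) X Y (2/5) := by simpa using k 2 5 (by norm_num)
  have c79 : Rep (cst 7 9) X Y (7/9) := by simpa using k 7 9 (by norm_num)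
  have c233 : Rep (cst 2 33) X Y (2/33) := by simpa using k 2 33 (by norm_num)
  have c111 : Rep (cst 1 11) X Y (1/11) := by simpa using k 1 11 (by norm_num)
  have c932 : Rep (cst 9 32) X Y (9/32) := by simpa using k 9 32 (by norm_num)
  have cr : Rep (cst 10807 10000) X Y (10807/10000) := by simpa using k 10807 10000 (by norm_num)
  have cj : Rep (cst 8488 10000) X Y (8488/10000) := by simpa using k 8488 10000 (by norm_num)
  have rp := rq.sub (rm.mul hX hY rS)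
  have rqm := rq.mul hX hY rm
  have ry := rS.add rqm
  have rT := rS.add (c34.mul hX hY rqm)
  have rm2 := rm.mul hX hY rm
  have rm3 := rm2.mul hX hY rm
  have rS2 := rS.mul hX hY rS
  have rgL := rp.mul hX hY
    ((c16.mul hX hY (rp.mul hX hY rp)).add (c12.mul hX hY (ry.sub one)))
  have rMG := rp.mul hX hY (((ry.mul hX hY ry).sub one).add (c13.mul hX hY (rp.mul hX hY rp)))
  have rx0 := c12.mul hX hY (rm3.mul hX hY rS)
  have rk1 := (rS.mul hX hY (one.sub rS2)).add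
    (c23.mul hX hY (rqm.mul hX hY (one.sub (three.mul hX hY rS2))))
  have rk2 := (c12.mul hX hY ((rm2.mul hX hY rS).mul hX hY ((three.mul hX hY rS2).sub two))).add
    (c25.mul hX hY ((rm3.mul hX hY rq).mul hX hY rS2))
  have rbase := ((cr.mul hX hY rgL).add cj).sub (c23.mul hX hY (rk1.add rk2))
  have rU := rS.add (c23.mul hX hY rqm)
  have rB0 := rbase.add (rU.mul hX hY ((c233.mul hX hY rx0).sub c79))
  have rB1 := rB0.add (rU.mul hX hY (c111.mul hX hY rMG))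
  have rnum := (c13.mul hX hY cr).mul hX hY ((rm3.mul hX hY rS).mul hX hY rT)
  have rden := (two.mul hX hY (rT.mul hX hY rT)).sub (c932.mul hX hY rm2)
  have rM0 := c23.add (c13.mul hX hY (rm3.mul hX hY rS))
  have rM1 := rM0.add rMG
  have hN := N_cast_pos
  have hM : (14345:ℝ)/10000 < (MMax:ℝ) / N := by
    rw [lt_div_iff₀ hN]
    norm_num [MMax, N]
  rcases hcase with ((((hp | hM0) | hM1) | hB0) | hB1) | ⟨hden, hG⟩
  · have := rp.of_hi hX hY hp
    have := h.hp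
    unfold pR at this
    linarith
  · have h1 := rM0.of_lo hX hY hM0
    have h2 := h.hx0
    unfold x0R at h2
    linarith [h.hxM]
  · have h1 := rM1.of_lo hX hY hM1
    have h2 := h.hx1
    unfold x0R MGR pR at h2
    linarith [h.hxM]
  · have hb := rB0.of_lo hX hY hB0
    exact concl_B h h.hx0 (b := _) (by simpa using hb) (b0_eq S q m)
  · have hb := rB1.of_lo hX hY hB1
    exact concl_B h h.hx1 (b := _) (by simpa using hb) (b1_eq S q m)
  · have hdpos := den_pos (rden.of_lo hX hY hden)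
    rcases hG with hG | hG
    · have hb := (rB0.mul hX hY rden |>.add rnum).of_lo hX hY hG
      exact concl_G h h.hx0 hdpos (by simpa using hb) (b0_eq S q m) (num_eq S q m) (den_eq S q m)
    · have hb := (rB1.mul hX hY rden |>.add rnum).of_lo hX hY hG
      exact concl_G h h.hx1 hdpos (by simpa using hb) (b1_eq S q m) (num_eq S q m) (den_eq S q m)

lemma affine_param {A B : ℤ} {v : ℝ} (p1 : (A + B) % 2 = 0) (p2 : (B - A) % 2 = 0)
    (hA : (A:ℝ) ≤ v) (hB : v ≤ B) : ∃ X : ℝ, |X| ≤ 1 ∧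
      v = (((A + B) / 2 : ℤ) : ℝ) + (((B - A) / 2 : ℤ) : ℝ) * X := by
  obtain ⟨c, rfl⟩ : ∃ c, B = 2 * c - A := ⟨(A + B) / 2, by omega⟩
  have e1 : (A + (2 * c - A)) / 2 = c := by omega
  have e2 : (2 * c - A - A) / 2 = c - A := by omega
  rw [e1, e2]
  push_cast at hB ⊢
  rcases eq_or_ne (c:ℝ) A with h | h
  · exact ⟨0, by norm_num, by rw [h] at hB ⊢; linarith⟩
  · have hlt : (0:ℝ) < c - A := lt_of_le_of_ne (by linarith) (sub_ne_zero.2 h).symm
    refine ⟨(v - c) / (c - A), ?_, by field_simp; ring⟩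
    rw [abs_div, abs_of_pos hlt, div_le_one hlt, abs_le]
    constructor <;> linarith

lemma tree_sound : ∀ (t : Tree) (A B C D : ℤ) {S q m x G : ℝ},
    t.check A B C D = true → (A:ℝ) ≤ S * N → S * N ≤ B → (C:ℝ) ≤ m * N → m * N ≤ D →
    Hyp S q m x G → avgR S q m x ≤ 8488/10000 + 10807/10000 * G := by
  intro t
  induction t with
  | leaf qc qx qe =>
    intro A B C D S q m x G hc hA hB hC hD h
    have hpar : (A + B) % 2 = 0 ∧ (B - A) % 2 = 0 ∧ (C + D) % 2 = 0 ∧ (D - C) % 2 = 0 := by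
      have := hc
      simp only [Tree.check, leafOK, Bool.and_eq_true, decide_eq_true_eq] at this
      exact this.1.1.1.1
    obtain ⟨p1, p2, p3, p4⟩ := hpar
    obtain ⟨X, hX, hSX⟩ : ∃ X, |X| ≤ 1 ∧
        S * N = (((A + B) / 2 : ℤ) : ℝ) + (((B - A) / 2 : ℤ) : ℝ) * X := affine_param p1 p2 hA hB
    obtain ⟨Y, hY, hmY⟩ : ∃ Y, |Y| ≤ 1 ∧
        m * N = (((C + D) / 2 : ℤ) : ℝ) + (((D - C) / 2 : ℤ) : ℝ) * Y := affine_param p3 p4 hC hD
    exact leaf_sound hX hY hSX hmY hc h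
  | splitS l r ihl ihr =>
    intro A B C D S q m x G hc hA hB hC hD h
    simp only [Tree.check, Bool.and_eq_true] at hc
    rcases le_total (S * N) (((A + B) / 2 : ℤ) : ℝ) with hs | hs
    · exact ihl _ _ _ _ hc.1 hA hs hC hD h
    · exact ihr _ _ _ _ hc.2 hs hB hC hD h
  | splitM l r ihl ihr =>
    intro A B C D S q m x G hc hA hB hC hD h
    simp only [Tree.check, Bool.and_eq_true] at hc
    rcases le_total (m * N) (((C + D) / 2 : ℤ) : ℝ) with hs | hs
    · exact ihl _ _ _ _ hc.1 hA hB hC hs h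
    · exact ihr _ _ _ _ hc.2 hA hB hs hD h
/-- For `m ≥ 9/4` the bound on `x` is violated. -/
lemma m_lt {S q m x G : ℝ} (h : Hyp S q m x G) : m < 9/4 := by
  by_contra hc
  push_neg at hc
  have hx0 := h.hx0
  have hx1 := h.hx1
  have hxM := h.hxM
  unfold x0R at hx0 hx1
  unfold MGR pR at hx1
  rcases le_total (1/2) (m * S) with hs | hs
  · nlinarith [mul_le_mul hc hc (by norm_num) h.hm, mul_le_mul_of_nonneg_left hs (mul_nonneg h.hm h.hm)]
  · have hS' : S ≤ 2/9 := by nlinarith [h.hS]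
    have hq' : 97/100 ≤ q := by nlinarith [h.hq, h.hsq, h.hS]
    have hp : 47/100 ≤ q - m * S := by linarith
    have hy : 2 ≤ S + q * m := by nlinarith [h.hS]
    have hy2 : 3 ≤ (S + q * m) * (S + q * m) - 1 + 1/3 * ((q - m*S) * (q - m*S)) := by nlinarith
    nlinarith [mul_le_mul hp hy2 (by norm_num) (by linarith), mul_nonneg (mul_nonneg (mul_nonneg h.hm h.hm) h.hm) h.hS.le]

/-- **Stage inequality.** -/
theorem stage_ineq {S q m x G : ℝ} (h : Hyp S q m x G) :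
    avgR S q m x ≤ 8488/10000 + 10807/10000 * G := by
  have hm := m_lt h
  have hS1 : S ≤ 1 := by nlinarith [h.hS, h.hsq, sq_nonneg q]
  have hN := N_cast_pos
  refine tree_sound stageTree 0 N 0 (9 * N / 4) stageTree_check ?_ ?_ ?_ ?_ h
  · push_cast; nlinarith [h.hS]
  · nlinarith
  · push_cast; nlinarith [h.hm]
  · norm_num [N] at hm ⊢; linarith

end Vale.Agent.P237.Stage
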