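import Mathlib

/-!
# Fixed-point affine arithmetic in two variables

`AF` is `(c + x*X + y*Y + err) / N` with `|err| ≤ e`, `X, Y ∈ [-1, 1]`, `N = 2^30`.
-/

namespace Vale.Agent.P237.Stage

/-- The scale of the fixed-point numbers. -/
def N : ℤ := 1073741824

lemma N_pos : 0 < N := by norm_num [N]

lemma N_cast_pos : (0:ℝ) < (N:ℝ) := by exact_mod_cast N_pos

/-- An affine form. -/
structure AF where
  c : ℤ
  x : ℤ
  y : ℤ
  e : ℤ

/-- Total linear deviation. -/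
def AF.dev (a : AF) : ℤ := |a.x| + |a.y|

/-- `a` represents the value `v` at the point `(X, Y)`. -/
def Rep (a : AF) (X Y v : ℝ) : Prop :=
  |v * N - (a.c + a.x * X + a.y * Y)| ≤ a.e

def AF.add (a b : AF) : AF := ⟨a.c + b.c, a.x + b.x, a.y + b.y, a.e + b.e⟩

def AF.sub (a b : AF) : AF := ⟨a.c - b.c, a.x - b.x, a.y - b.y, a.e + b.e⟩

def AF.mul (a b : AF) : AF :=
  ⟨a.c * b.c / N, (a.c * b.x + a.x * b.c) / N, (a.c * b.y + a.y * b.c) / N,
    (a.dev * b.dev + (|a.c| + a.dev) * b.e + (|b.c| + b.dev) * a.e + a.e * b.e) / N + 4⟩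

instance : Add AF := ⟨AF.add⟩
instance : Sub AF := ⟨AF.sub⟩
instance : Mul AF := ⟨AF.mul⟩

/-- The constant `n / d`. -/
def AF.const (n d : ℤ) : AF := ⟨n * N / d, 0, 0, 1⟩

def AF.lo (a : AF) : ℤ := a.c - a.dev - a.e

def AF.hi (a : AF) : ℤ := a.c + a.dev + a.e

lemma ediv_cast (z d : ℤ) (hd : 0 < d) :
    ((z / d : ℤ) : ℝ) ≤ (z : ℝ) / d ∧ (z : ℝ) / d ≤ ((z / d : ℤ) : ℝ) + 1 := by
  have hd' : (0:ℝ) < d := by exact_mod_cast hd
  have h1 : (d:ℝ) * ((z / d : ℤ) : ℝ) + ((z % d : ℤ) : ℝ) = z := by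
    exact_mod_cast Int.mul_ediv_add_emod z d
  have h2 : (0:ℝ) ≤ ((z % d : ℤ) : ℝ) := by exact_mod_cast Int.emod_nonneg z hd.ne'
  have h3 : ((z % d : ℤ) : ℝ) ≤ d := by exact_mod_cast (Int.emod_lt_of_pos z hd).le
  constructor
  · rw [le_div_iff₀ hd']; nlinarith
  · rw [div_le_iff₀ hd']; nlinarith

variable {a b : AF} {X Y u v : ℝ}

lemma Rep.add (ha : Rep a X Y u) (hb : Rep b X Y v) : Rep (a + b) X Y (u + v) := by
  show Rep (a.add b) X Y (u + v)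
  unfold Rep AF.add at *
  push_cast
  rw [abs_le] at *
  constructor <;> linarith

lemma Rep.sub (ha : Rep a X Y u) (hb : Rep b X Y v) : Rep (a - b) X Y (u - v) := by
  show Rep (a.sub b) X Y (u - v)
  unfold Rep AF.sub at *
  push_cast
  rw [abs_le] at *
  constructor <;> linarith

lemma rep_const (n d : ℤ) (hd : 0 < d) : Rep (AF.const n d) X Y ((n:ℝ) / d) := by
  unfold Rep AF.const
  have h := ediv_cast (n * N) d hd
  push_cast at h ⊢
  have e : (n:ℝ) / d * N = n * N / d := by ring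
  rw [e, abs_le]
  constructor <;> linarith [h.1, h.2]

lemma abs_dev (a : AF) (hX : |X| ≤ 1) (hY : |Y| ≤ 1) :
    |(a.x:ℝ) * X + a.y * Y| ≤ a.dev := by
  unfold AF.dev
  push_cast
  calc |(a.x:ℝ) * X + a.y * Y| ≤ |(a.x:ℝ) * X| + |(a.y:ℝ) * Y| := abs_add_le _ _
    _ ≤ |(a.x:ℝ)| + |(a.y:ℝ)| := by
        rw [abs_mul, abs_mul]
        exact add_le_add (mul_le_of_le_one_right (abs_nonneg _) hX)
          (mul_le_of_le_one_right (abs_nonneg _) hY)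

lemma combine {X Y C Cx Cy Er R : ℝ} {c x y e : ℤ} (hX : |X| ≤ 1) (hY : |Y| ≤ 1)
    (hc : (c:ℝ) ≤ C ∧ C ≤ (c:ℝ) + 1) (hx : (x:ℝ) ≤ Cx ∧ Cx ≤ (x:ℝ) + 1)
    (hy : (y:ℝ) ≤ Cy ∧ Cy ≤ (y:ℝ) + 1) (he : (e:ℝ) ≤ Er ∧ Er ≤ (e:ℝ) + 1) (hR : |R| ≤ Er) :
    |C + Cx * X + Cy * Y + R - ((c:ℝ) + x * X + y * Y)| ≤ ((e + 4 : ℤ) : ℝ) := by
  have t : C + Cx * X + Cy * Y + R - ((c:ℝ) + x * X + y * Y)
      = (C - c) + (Cx - x) * X + (Cy - y) * Y + R := by ring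
  have dc : |C - c| ≤ 1 := abs_le.2 ⟨by linarith [hc.1], by linarith [hc.2]⟩
  have dx : |(Cx - x) * X| ≤ 1 := by
    rw [abs_mul]
    exact mul_le_one₀ (abs_le.2 ⟨by linarith [hx.1], by linarith [hx.2]⟩) (abs_nonneg _) hX
  have dy : |(Cy - y) * Y| ≤ 1 := by
    rw [abs_mul]
    exact mul_le_one₀ (abs_le.2 ⟨by linarith [hy.1], by linarith [hy.2]⟩) (abs_nonneg _) hY
  rw [t, abs_le]
  rw [abs_le] at hR dc dx dy
  push_cast
  constructor <;> linarith [hR.1, hR.2, he.1, he.2, dc.1, dc.2, dx.1, dx.2, dy.1, dy.2]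

lemma Rep.mul (hX : |X| ≤ 1) (hY : |Y| ≤ 1) (ha : Rep a X Y u) (hb : Rep b X Y v) :
    Rep (a * b) X Y (u * v) := by
  show Rep (a.mul b) X Y (u * v)
  unfold Rep at ha hb ⊢
  have hN := N_cast_pos
  set A : ℝ := (a.x:ℝ) * X + a.y * Y with hA
  set B : ℝ := (b.x:ℝ) * X + b.y * Y with hB
  set ea : ℝ := u * N - (a.c + a.x * X + a.y * Y) with hea
  set eb : ℝ := v * N - (b.c + b.x * X + b.y * Y) with heb
  have hA' : |A| ≤ a.dev := abs_dev a hX hY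
  have hB' : |B| ≤ b.dev := abs_dev b hX hY
  have hua : u * N = a.c + A + ea := by rw [hea, hA]; ring
  have hvb : v * N = b.c + B + eb := by rw [heb, hB]; ring
  set E : ℤ := a.dev * b.dev + (|a.c| + a.dev) * b.e + (|b.c| + b.dev) * a.e + a.e * b.e with hE
  set R : ℝ := A * B + (a.c + A) * eb + (b.c + B) * ea + ea * eb with hR
  have hRE : |R| ≤ (E : ℝ) := by
    rw [hR, hE]; push_cast
    have h1 : |(a.c:ℝ) + A| ≤ |(a.c:ℝ)| + a.dev := (abs_add_le _ _).trans (by linarith)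
    have h2 : |(b.c:ℝ) + B| ≤ |(b.c:ℝ)| + b.dev := (abs_add_le _ _).trans (by linarith)
    have p1 : |A * B| ≤ (a.dev:ℝ) * b.dev := by
      rw [abs_mul]; exact mul_le_mul hA' hB' (abs_nonneg _) ((abs_nonneg _).trans hA')
    have p2 : |((a.c:ℝ) + A) * eb| ≤ (|(a.c:ℝ)| + a.dev) * b.e := by
      rw [abs_mul]; exact mul_le_mul h1 hb (abs_nonneg _) ((abs_nonneg _).trans h1)
    have p3 : |((b.c:ℝ) + B) * ea| ≤ (|(b.c:ℝ)| + b.dev) * a.e := by
      rw [abs_mul]; exact mul_le_mul h2 ha (abs_nonneg _) ((abs_nonneg _).trans h2)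
    have p4 : |ea * eb| ≤ (a.e:ℝ) * b.e := by
      rw [abs_mul]; exact mul_le_mul ha hb (abs_nonneg _) ((abs_nonneg _).trans ha)
    have := abs_add_le (A * B + ((a.c:ℝ) + A) * eb + ((b.c:ℝ) + B) * ea) (ea * eb)
    have := abs_add_le (A * B + ((a.c:ℝ) + A) * eb) (((b.c:ℝ) + B) * ea)
    have := abs_add_le (A * B) (((a.c:ℝ) + A) * eb)
    linarith
  have hc := ediv_cast (a.c * b.c) N N_pos
  have hx := ediv_cast (a.c * b.x + a.x * b.c) N N_pos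
  have hy := ediv_cast (a.c * b.y + a.y * b.c) N N_pos
  have he := ediv_cast E N N_pos
  push_cast at hc hx hy
  have key : u * v * N = ((a.c:ℝ) * b.c) / N + (((a.c:ℝ) * b.x + a.x * b.c) / N) * X
      + (((a.c:ℝ) * b.y + a.y * b.c) / N) * Y + R / N := by
    have e0 : u * v * N = (u * N) * (v * N) / N := by field_simp
    rw [e0, hua, hvb, hR, hA, hB]; field_simp; ring
  have hR' : |R / (N:ℝ)| ≤ (E:ℝ) / N := by
    rw [abs_div, abs_of_pos hN]; exact div_le_div_of_nonneg_right hRE hN.le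
  rw [key]
  exact combine hX hY hc hx hy he hR'

lemma Rep.of_lo (hX : |X| ≤ 1) (hY : |Y| ≤ 1) (ha : Rep a X Y u) {k : ℤ} (h : k ≤ a.lo) :
    (k:ℝ) / N ≤ u := by
  unfold Rep at ha
  have := (abs_le.1 (abs_dev a hX hY)).1
  have := (abs_le.1 ha).1
  have h' : (k:ℝ) ≤ (a.c:ℝ) - a.dev - a.e := by unfold AF.lo at h; exact_mod_cast h
  rw [div_le_iff₀ N_cast_pos]
  linarith

lemma Rep.of_hi (hX : |X| ≤ 1) (hY : |Y| ≤ 1) (ha : Rep a X Y u) (h : a.hi < 0) : u < 0 := by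
  unfold Rep at ha
  have := (abs_le.1 (abs_dev a hX hY)).2
  have := (abs_le.1 ha).2
  have h' : (a.c:ℝ) + a.dev + a.e < 0 := by unfold AF.hi at h; exact_mod_cast h
  have : u * N < 0 := by linarith
  exact neg_of_mul_neg_left this N_cast_pos.le

end Vale.Agent.P237.Stage
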