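import Vale.Agent.P237.Profile.Affine

/-!
# A certificate for the two-variable stage inequality of the profile lemma

`S = √(1-q²)`, `m = (q-p)/S`.  The partition of `[0,1] × [0,9/4]` was found by bisection.
-/

namespace Vale.Agent.P237.Stage

/-- Bisection tree; a leaf stores an enclosing line for `√(1-S²)` on its `S`-interval. -/
inductive Tree where
  | leaf (qc qx qe : ℤ)
  | splitS (l r : Tree)
  | splitM (l r : Tree)

/-- Part of the certificate. -/
def stageTreeaaa : Tree :=
  .splitS (.splitM (.leaf 1061007342 (-17047887) 4313405) (.splitS (.leaf 1070586819 (-4210817) 1055813) (.leaf 1053590895 (-12837069) 1107776))) (.splitM (.splitS (.leaf 1018741200 (-22130369) 1225520) (.splitM (.leaf 964082878 (-32748807) 1446375) (.leaf 964082878 (-32748807) 1446375))) (.splitS (.splitM (.leaf 1018741200 (-22130369) 1225520) (.splitS (.leaf 1030102994 (-9839811) 296756) (.leaf 1007992591 (-12290558) 316722))) (.splitM (.splitS (.leaf 980800675 (-14928447) 343812) (.leaf 948088716 (-17820360) 380660)) (.splitS (.leaf 980800675 (-14928447) 343812) (.splitM (.leaf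 948088716 (-17820360) 380660) (.leaf 948088716 (-17820360) 380660))))))

/-- Part of the certificate. -/
def stageTreeaab : Tree :=
  .splitS (.splitM (.splitS (.leaf 1070586819 (-4210817) 1055813) (.splitM (.leaf 1053590895 (-12837069) 1107776) (.splitS (.leaf 1060281513 (-5310801) 272126) (.leaf 1047454566 (-7526268) 282248)))) (.splitS (.splitM (.leaf 1070586819 (-4210817) 1055813) (.splitS (.leaf 1072954816 (-1049602) 262595) (.leaf 1068747113 (-3161215) 265709))) (.splitM (.splitS (.leaf 1060281513 (-5310801) 272126) (.leaf 1047454566 (-7526268) 282248)) (.splitS (.leaf 1060281513 (-5310801) 272126) (.leaf 1047454566 (-7526268) 282248))))) (.splitM (.splitS (.splitM (.splitS (.leaf 1030102994 (-9839811) 296756) (.leaf 1007992591 (-12290558) 316722)) (.splitS (.leaf 1030102994 (-9839811) 296756) (.leaf 1007992591 (-12290558) 316722))) (.splitM (.splitS (.splitM (.leaf 980800675 (-14928447) 343812) (.leaf 980800675 (-14928447) 343812)) (.splitM (.leaf 948088716 (-17820360) 380660) (.leaf 948088716 (-17820360) 380660))) (.splitS (.splitM (.leaf 980800675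 (-14928447) 343812) (.leaf 980800675 (-14928447) 343812)) (.splitM (.leaf 948088716 (-17820360) 380660) (.leaf 948088716 (-17820360) 380660))))) (.splitS (.splitM (.splitS (.leaf 1030102994 (-9839811) 296756) (.splitM (.leaf 1007992591 (-12290558) 316722) (.leaf 1007992591 (-12290558) 316722))) (.splitS (.splitM (.leaf 1030102994 (-9839811) 296756) (.leaf 1030102994 (-9839811) 296756)) (.splitM (.leaf 1007992591 (-12290558) 316722) (.leaf 1007992591 (-12290558) 316722)))) (.splitM (.splitS (.splitM (.leaf 980800675 (-14928447) 343812) (.leaf 980800675 (-14928447) 343812)) (.splitM (.leaf 948088716 (-17820360) 380660) (.leaf 948088716 (-17820360) 380660))) (.splitS (.splitM (.leaf 980800675 (-14928447) 343812) (.leaf 980800675 (-14928447) 343812)) (.splitM (.leaf 948088716 (-17820360) 380660) (.leaf 948088716 (-17820360) 380660))))))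

/-- Part of the certificate. -/
def stageTreeaa : Tree :=
  .splitM stageTreeaaa stageTreeaab

/-- Part of the certificate. -/
def stageTreeaba : Tree :=
  .splitS (.splitM (.splitS (.splitM (.splitS (.leaf 909258837 (-21060436) 431577) (.leaf 863482123 (-24788691) 503990)) (.splitS (.leaf 909258837 (-21060436) 431577) (.splitM (.leaf 863482123 (-24788691) 503990) (.leaf 863482123 (-24788691) 503990)))) (.splitM (.splitS (.splitM (.leaf 809573668 (-29227452) 611679) (.leaf 809573668 (-29227452) 611679)) (.splitM (.leaf 745756917 (-34760539) 782919) (.leaf 745756917 (-34760539) 782919))) (.splitS (.splitM (.leaf 809573668 (-29227452) 611679) (.leaf 809573668 (-29227452) 611679)) (.splitM (.leaf 745756917 (-34760539) 782919) (.leaf 745756917 (-34760539) 782919))))) (.splitS (.splitM (.splitS (.splitM (.leaf 909258837 (-21060436) 431577) (.leaf 909258837 (-21060436) 431577)) (.splitM (.leaf 863482123 (-24788691) 503990) (.leaf 863482123 (-24788691) 503990))) (.splitS (.splitM (.leaf 909258837 (-21060436) 431577) (.leaf 909258837 (-21060436) 431577)) (.splitM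 (.splitS (.leaf 875997049 (-11890461) 120687) (.leaf 851219209 (-12898229) 131538)) (.splitS (.leaf 875997049 (-11890461) 120687) (.leaf 851219209 (-12898229) 131538))))) (.splitM (.splitS (.splitM (.leaf 809573668 (-29227452) 611679) (.leaf 809573668 (-29227452) 611679)) (.splitM (.splitS (.leaf 763319198 (-16597777) 182438) (.leaf 728586032 (-18162762) 209811)) (.splitS (.leaf 763319198 (-16597777) 182438) (.leaf 728586032 (-18162762) 209811)))) (.splitS (.splitM (.splitS (.leaf 824332031 (-14002248) 144838) (.leaf 795121142 (-15225204) 161401)) (.splitS (.leaf 824332031 (-14002248) 144838) (.leaf 795121142 (-15225204) 161401))) (.splitM (.splitS (.leaf 763319198 (-16597777) 182438) (.leaf 728586032 (-18162762) 209811)) (.leaf 745756917 (-34760539) 782919)))))) (.splitM (.splitS (.splitM (.splitS (.splitM (.leaf 669166521 (-42131823) 1084886) (.leaf 669166521 (-42131823) 1084886)) (.splitM (.splitS (.leaf 601506172 (-24816758) 373119) (.leaf 548561887 (-28246635) 492227)) (.leaf 574605019 (-53063393) 1718601))) (.splitS (.splitM (.leaf 669166521 (-42131823)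 1084886) (.leaf 669166521 (-42131823) 1084886)) (.leaf 574605019 (-53063393) 1718601))) (.splitM (.splitS (.leaf 450349083 (-73088342) 3614400) (.splitM (.leaf 234652940 (-186823170) 47829770) (.leaf 234652940 (-186823170) 47829770))) (.splitS (.leaf 450349083 (-73088342) 3614400) (.splitM (.leaf 234652940 (-186823170) 47829770) (.leaf 234652940 (-186823170) 47829770))))) (.splitS (.splitM (.splitS (.splitM (.leaf 669166521 (-42131823) 1084886) (.leaf 669166521 (-42131823) 1084886)) (.splitM (.leaf 574605019 (-53063393) 1718601) (.leaf 574605019 (-53063393) 1718601))) (.splitS (.splitM (.leaf 669166521 (-42131823) 1084886) (.leaf 669166521 (-42131823) 1084886)) (.leaf 574605019 (-53063393) 1718601))) (.splitM (.splitS (.leaf 450349083 (-73088342) 3614400) (.splitM (.splitS (.leaf 322455867 (-53658147) 2467673) (.splitM (.leaf 166851563 (-133165023) 33686540) (.leaf 166851563 (-133165023) 33686540))) (.splitS (.leaf 322455867 (-53658147) 2467673) (.leaf 166851563 (-133165023) 33686540)))) (.splitS (.leaf 450349083 (-73088342) 3614400) (.splitM (.splitS (.leaf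 322455867 (-53658147) 2467673) (.leaf 166851563 (-133165023) 33686540)) (.leaf 234652940 (-186823170) 47829770))))))

/-- Part of the certificate. -/
def stageTreeabb : Tree :=
  .splitS (.splitM (.splitS (.splitM (.splitS (.splitM (.leaf 909258837 (-21060436) 431577) (.leaf 909258837 (-21060436) 431577)) (.splitM (.splitS (.leaf 875997049 (-11890461) 120687) (.leaf 851219209 (-12898229) 131538)) (.leaf 863482123 (-24788691) 503990))) (.splitS (.splitM (.leaf 909258837 (-21060436) 431577) (.leaf 909258837 (-21060436) 431577)) (.splitM (.leaf 863482123 (-24788691) 503990) (.leaf 863482123 (-24788691) 503990)))) (.splitM (.splitS (.splitM (.leaf 809573668 (-29227452) 611679) (.leaf 809573668 (-29227452) 611679)) (.splitM (.leaf 745756917 (-34760539) 782919) (.leaf 745756917 (-34760539) 782919))) (.splitS (.splitM (.leaf 809573668 (-29227452) 611679) (.leaf 809573668 (-29227452) 611679)) (.splitM (.leaf 745756917 (-34760539) 782919) (.leaf 745756917 (-34760539) 782919))))) (.splitS (.splitM (.splitS (.splitM (.leaf 909258837 (-21060436) 431577) (.leaf 909258837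 (-21060436) 431577)) (.splitM (.leaf 863482123 (-24788691) 503990) (.leaf 863482123 (-24788691) 503990))) (.splitS (.splitM (.leaf 909258837 (-21060436) 431577) (.leaf 909258837 (-21060436) 431577)) (.splitM (.leaf 863482123 (-24788691) 503990) (.leaf 863482123 (-24788691) 503990)))) (.splitM (.splitS (.splitM (.leaf 809573668 (-29227452) 611679) (.leaf 809573668 (-29227452) 611679)) (.splitM (.splitS (.leaf 763319198 (-16597777) 182438) (.leaf 728586032 (-18162762) 209811)) (.splitS (.leaf 763319198 (-16597777) 182438) (.leaf 728586032 (-18162762) 209811)))) (.splitS (.splitM (.splitS (.leaf 824332031 (-14002248) 144838) (.leaf 795121142 (-15225204) 161401)) (.splitS (.leaf 824332031 (-14002248) 144838) (.leaf 795121142 (-15225204) 161401))) (.splitM (.splitS (.leaf 763319198 (-16597777) 182438) (.leaf 728586032 (-18162762) 209811)) (.splitS (.leaf 763319198 (-16597777) 182438) (.leaf 728586032 (-18162762) 209811))))))) (.splitM (.splitS (.splitM (.splitS (.splitM (.leaf 669166521 (-42131823) 1084886) (.leaf 669166521 (-42131823) 1084886)) (.splitM (.leaf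 574605019 (-53063393) 1718601) (.leaf 574605019 (-53063393) 1718601))) (.splitS (.splitM (.leaf 669166521 (-42131823) 1084886) (.splitS (.leaf 690477891 (-19982102) 246535) (.leaf 648397311 (-22149721) 297778))) (.splitM (.splitS (.leaf 601506172 (-24816758) 373119) (.leaf 548561887 (-28246635) 492227)) (.leaf 574605019 (-53063393) 1718601)))) (.splitM (.splitS (.splitM (.splitS (.leaf 487571421 (-32953541) 701938) (.leaf 414923957 (-40134800) 1142816)) (.leaf 450349083 (-73088342) 3614400)) (.leaf 234652940 (-186823170) 47829770)) (.splitS (.leaf 450349083 (-73088342) 3614400) (.leaf 234652940 (-186823170) 47829770)))) (.splitS (.splitM (.splitS (.splitM (.splitS (.leaf 690477891 (-19982102) 246535) (.leaf 648397311 (-22149721) 297778)) (.leaf 669166521 (-42131823) 1084886)) (.leaf 574605019 (-53063393) 1718601)) (.leaf 620516287 (-95195217) 5498045)) (.leaf 328103060 (-259911512) 68191548)))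

/-- Part of the certificate. -/
def stageTreeab : Tree :=
  .splitM stageTreeaba stageTreeabb

/-- Part of the certificate. -/
def stageTreea : Tree :=
  .splitS stageTreeaa stageTreeab

/-- Part of the certificate. -/
def stageTreebaa : Tree :=
  .splitS (.splitM (.splitS (.splitM (.splitS (.splitM (.leaf 1072954816 (-1049602) 262595) (.leaf 1072954816 (-1049602) 262595)) (.splitM (.leaf 1068747113 (-3161215) 265709) (.leaf 1068747113 (-3161215) 265709))) (.leaf 1070586819 (-4210817) 1055813)) (.splitM (.splitS (.splitM (.leaf 1060281513 (-5310801) 272126) (.leaf 1060281513 (-5310801) 272126)) (.splitM (.leaf 1047454566 (-7526268) 282248) (.leaf 1047454566 (-7526268) 282248))) (.leaf 1053590895 (-12837069) 1107776))) (.leaf 1061007342 (-17047887) 4313405)) (.splitM (.splitS (.splitM (.splitS (.splitM (.leaf 1030102994 (-9839811) 296756) (.leaf 1030102994 (-9839811) 296756)) (.splitM (.leaf 1007992591 (-12290558) 316722) (.leaf 1007992591 (-12290558) 316722))) (.leaf 1018741200 (-22130369) 1225520)) (.splitM (.splitS (.splitM (.leaf 980800675 (-14928447)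 343812) (.leaf 980800675 (-14928447) 343812)) (.splitM (.leaf 948088716 (-17820360) 380660) (.leaf 948088716 (-17820360) 380660))) (.splitS (.leaf 980800675 (-14928447) 343812) (.leaf 948088716 (-17820360) 380660)))) (.splitS (.leaf 1018741200 (-22130369) 1225520) (.splitM (.splitS (.leaf 980800675 (-14928447) 343812) (.leaf 948088716 (-17820360) 380660)) (.splitS (.leaf 980800675 (-14928447) 343812) (.leaf 948088716 (-17820360) 380660)))))

/-- Part of the certificate. -/
def stageTreebab : Tree :=
  .splitS (.splitM (.leaf 1061007342 (-17047887) 4313405) (.leaf 1061007342 (-17047887) 4313405)) (.splitM (.splitS (.leaf 1018741200 (-22130369) 1225520) (.splitM (.splitS (.leaf 980800675 (-14928447) 343812) (.leaf 948088716 (-17820360) 380660)) (.splitS (.leaf 980800675 (-14928447) 343812) (.leaf 948088716 (-17820360) 380660)))) (.splitS (.leaf 1018741200 (-22130369) 1225520) (.leaf 964082878 (-32748807) 1446375)))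

/-- Part of the certificate. -/
def stageTreeba : Tree :=
  .splitM stageTreebaa stageTreebab

/-- Part of the certificate. -/
def stageTreebba : Tree :=
  .splitS (.splitM (.splitS (.splitM (.splitS (.splitM (.leaf 909258837 (-21060436) 431577) (.leaf 909258837 (-21060436) 431577)) (.splitM (.leaf 863482123 (-24788691) 503990) (.splitS (.leaf 875997049 (-11890461) 120687) (.leaf 851219209 (-12898229) 131538)))) (.splitS (.splitM (.leaf 909258837 (-21060436) 431577) (.leaf 909258837 (-21060436) 431577)) (.splitM (.splitS (.leaf 875997049 (-11890461) 120687) (.leaf 851219209 (-12898229) 131538)) (.splitS (.leaf 875997049 (-11890461) 120687) (.leaf 851219209 (-12898229) 131538))))) (.splitM (.splitS (.splitM (.splitS (.leaf 824332031 (-14002248) 144838) (.leaf 795121142 (-15225204) 161401)) (.splitS (.leaf 824332031 (-14002248) 144838) (.leaf 795121142 (-15225204) 161401))) (.leaf 745756917 (-34760539) 782919)) (.splitS (.leaf 809573668 (-29227452) 611679) (.leaf 745756917 (-34760539) 782919)))) (.splitS (.splitM (.splitS (.splitM (.leaf 909258837 (-21060436)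 431577) (.leaf 909258837 (-21060436) 431577)) (.splitM (.splitS (.leaf 875997049 (-11890461) 120687) (.leaf 851219209 (-12898229) 131538)) (.leaf 863482123 (-24788691) 503990))) (.splitS (.splitM (.leaf 909258837 (-21060436) 431577) (.leaf 909258837 (-21060436) 431577)) (.leaf 863482123 (-24788691) 503990))) (.leaf 776972686 (-63987991) 2771236))) (.splitM (.splitS (.leaf 620516287 (-95195217) 5498045) (.leaf 328103060 (-259911512) 68191548)) (.leaf 453180061 (-355106729) 98073332))

/-- Part of the certificate. -/
def stageTreebbb : Tree :=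
  .splitS (.splitM (.splitS (.splitM (.splitS (.leaf 909258837 (-21060436) 431577) (.leaf 863482123 (-24788691) 503990)) (.leaf 885903946 (-45849127) 1865377)) (.leaf 776972686 (-63987991) 2771236)) (.leaf 829159715 (-109837118) 9109138)) (.leaf 453180061 (-355106729) 98073332)

/-- Part of the certificate. -/
def stageTreebb : Tree :=
  .splitM stageTreebba stageTreebbb

/-- Part of the certificate. -/
def stageTreeb : Tree :=
  .splitS stageTreeba stageTreebb

/-- Part of the certificate. -/
def stageTree : Tree :=
  .splitM stageTreea stageTreeb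

/-- The lower bound for `gain · den` divided by `den`, symbolic parts. -/
noncomputable def pR (S q m : ℝ) : ℝ := q - m * S
noncomputable def gLR (S q m : ℝ) : ℝ :=
  pR S q m * (1/6 * (pR S q m * pR S q m) + 1/2 * (S + q * m - 1))
noncomputable def MGR (S q m : ℝ) : ℝ :=
  pR S q m * (((S + q * m) * (S + q * m) - 1) + 1/3 * (pR S q m * pR S q m))
noncomputable def x0R (S m : ℝ) : ℝ := 1/2 * (m * m * m * S)
noncomputable def UR (S q m : ℝ) : ℝ := S + 2/3 * (q * m)
noncomputable def TR (S q m : ℝ) : ℝ := S + 3/4 * (q * m)
noncomputable def denR (S q m : ℝ) : ℝ := 2 * (TR S q m * TR S q m) - 9/32 * (m * m)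
noncomputable def gRnumR (S q m : ℝ) : ℝ := 1/3 * (m * m * m * S * TR S q m)
/-- Weighted average of `L · T_q` on the tangent segment. -/
noncomputable def avgR (S q m x : ℝ) : ℝ :=
  (7/9 - 2/33 * x) * UR S q m
    + 2/3 * ((S * (1 - S * S) + 2/3 * (q * m * (1 - 3 * (S * S))))
      + (1/2 * (m * m * S * (3 * (S * S) - 2)) + 2/5 * (m * m * m * q * (S * S))))

/-- The quantities used by the checker. -/
structure Parts where
  p : AF
  B0 : AF
  B1 : AF
  den : AF
  num : AF
  M0 : AF
  M1 : AF

def cst (n d : ℤ) : AF := AF.const n d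

def parts (S q m : AF) : Parts :=
  let one := cst 1 1
  let p := q - m * S
  let qm := q * m
  let y := S + qm
  let T := S + cst 3 4 * qm
  let m2 := m * m
  let m3 := m2 * m
  let S2 := S * S
  let gL := p * (cst 1 6 * (p * p) + cst 1 2 * (y - one))
  let MG := p * ((y * y - one) + cst 1 3 * (p * p))
  let x0 := cst 1 2 * (m3 * S)
  let k1 := S * (one - S2) + cst 2 3 * (qm * (one - cst 3 1 * S2))
  let k2 := cst 1 2 * ((m2 * S) * (cst 3 1 * S2 - cst 2 1)) + cst 2 5 * ((m3 * q) * S2)
  let base := (cst 10807 10000 * gL + cst 8488 10000) - cst 2 3 * (k1 + k2)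
  let U := S + cst 2 3 * qm
  let B0 := base + U * (cst 2 33 * x0 - cst 7 9)
  let B1 := B0 + U * (cst 1 11 * MG)
  let num := (cst 1 3 * cst 10807 10000) * ((m3 * S) * T)
  let den := cst 2 1 * (T * T) - cst 9 32 * m2
  let M0 := cst 2 3 + cst 1 3 * (m3 * S)
  let M1 := M0 + MG
  ⟨p, B0, B1, den, num, M0, M1⟩

/-- Upper bound for `M`, scaled. -/
def MMax : ℤ := 14345 * N / 10000 + 1

/-- The leaf test. -/
def leafOK (A B C D qc qx qe : ℤ) : Bool :=
  let sc := (A + B) / 2
  let sx := (B - A) / 2
  let S : AF := ⟨sc, sx, 0, 0⟩
  let q : AF := ⟨qc, qx, 0, qe⟩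
  let m : AF := ⟨(C + D) / 2, 0, (D - C) / 2, 0⟩
  let u := qc + qe
  let P := parts S q m
  decide ((A + B) % 2 = 0 ∧ (B - A) % 2 = 0 ∧ (C + D) % 2 = 0 ∧ (D - C) % 2 = 0)
    && decide ((qc - qe + qx) * (qc - qe + qx) + B * B ≤ N * N)
    && decide ((qc - qe - qx) * (qc - qe - qx) + A * A ≤ N * N)
    && decide (|qx| ≤ u ∧ 0 ≤ u * u + sc * sc - N * N ∧
      (2 * (u * qx + sc * sx)) * (2 * (u * qx + sc * sx))
        ≤ 4 * (qx * qx + sx * sx) * (u * u + sc * sc - N * N))
    && (decide (P.p.hi < 0) || decide (MMax ≤ P.M0.lo) || decide (MMax ≤ P.M1.lo)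
      || decide (0 ≤ P.B0.lo) || decide (0 ≤ P.B1.lo)
      || (decide (1 ≤ P.den.lo) &&
        (decide (0 ≤ (P.B0 * P.den + P.num).lo) || decide (0 ≤ (P.B1 * P.den + P.num).lo))))

/-- The tree test. -/
def Tree.check : Tree → ℤ → ℤ → ℤ → ℤ → Bool
  | .leaf qc qx qe, A, B, C, D => leafOK A B C D qc qx qe
  | .splitS l r, A, B, C, D => l.check A ((A + B) / 2) C D && r.check ((A + B) / 2) B C D
  | .splitM l r, A, B, C, D => l.check A B C ((C + D) / 2) && r.check A B ((C + D) / 2) D

set_option maxRecDepth 100000 in
theorem stageTree_check : stageTree.check 0 N 0 (9 * N / 4) = true := by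
  decide +kernel

end Vale.Agent.P237.Stage
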