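import Vale.Agent.P237.Profile.Path

/-!
# Right derivative of the functional along the path
-/

namespace Vale.Agent.P237.Profile

open Set MeasureTheory Filter
open scoped Topology Real

/-- The unit interval with Lebesgue measure. -/
noncomputable def μI : Measure ℝ := volume.restrict (Ioo (0:ℝ) 1)

instance : IsFiniteMeasure μI := ⟨by rw [μI, Measure.restrict_apply_univ, Real.volume_Ioo]; simp⟩

lemma ae_mem : ∀ᵐ t ∂μI, t ∈ Ioo (0:ℝ) 1 := ae_restrict_mem measurableSet_Ioo

lemma ae_ne (q : ℝ) : ∀ᵐ t ∂μI, t ≠ q := by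
  have : μI {q} = 0 := by simp [μI]
  exact compl_mem_ae_iff.2 this

lemma deriv_integral_right {μ : Measure ℝ} [IsFiniteMeasure μ] {F : ℝ → ℝ → ℝ} {F' : ℝ → ℝ}
    {q B C : ℝ} (hqB : q < B) (hint : ∀ a ∈ Icc q B, Integrable (F a) μ)
    (hlip : ∀ a ∈ Ioc q B, ∀ᵐ t ∂μ, |F a t - F q t| ≤ C * (a - q))
    (hder : ∀ᵐ t ∂μ, HasDerivWithinAt (fun a => F a t) (F' t) (Ioi q) q) :
    HasDerivWithinAt (fun a => ∫ t, F a t ∂μ) (∫ t, F' t ∂μ) (Ioi q) q := by
  rw [hasDerivWithinAt_iff_tendsto_slope' self_notMem_Ioi]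
  have hev : ∀ᶠ a in 𝓝[>] q, a ∈ Ioc q B :=
    Filter.mem_of_superset (Ioc_mem_nhdsGT hqB) (fun a ha => ha)
  have heq : (fun a => ∫ t, (F a t - F q t) / (a - q) ∂μ) =ᶠ[𝓝[>] q]
      slope (fun a => ∫ t, F a t ∂μ) q := by
    filter_upwards [hev] with a ha
    rw [slope_def_field, integral_div,
      integral_sub (hint a (Ioc_subset_Icc_self ha)) (hint q (left_mem_Icc.2 hqB.le))]
  refine Tendsto.congr' heq ?_
  refine tendsto_integral_filter_of_dominated_convergence (fun _ => C) ?_ ?_
    (integrable_const C) ?_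
  · filter_upwards [hev] with a ha
    exact (((hint a (Ioc_subset_Icc_self ha)).sub (hint q (left_mem_Icc.2 hqB.le))).div_const
      _).aestronglyMeasurable
  · filter_upwards [hev] with a ha
    filter_upwards [hlip a ha] with t ht
    rw [Real.norm_eq_abs, abs_div, abs_of_pos (sub_pos.2 ha.1), div_le_iff₀ (sub_pos.2 ha.1)]
    exact ht
  · filter_upwards [hder] with t ht
    have := (hasDerivWithinAt_iff_tendsto_slope' self_notMem_Ioi).1 ht
    simpa only [slope_fun_def_field] using this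

variable {g : ℝ → ℝ}

lemma Adm.aemeas (hg : Adm g) : AEStronglyMeasurable g μI :=
  (aemeasurable_restrict_of_antitoneOn measurableSet_Ioo
    (hg.anti.mono Ioo_subset_Icc_self)).aestronglyMeasurable

lemma continuousOn_tstar {q : ℝ} (hq : q < 1) : ContinuousOn (tstar q) (Ioo (0:ℝ) 1) := by
  unfold tstar tang
  refine ContinuousOn.div (by fun_prop) (by fun_prop) ?_
  intro t ht
  exact (sqrt_pos_of (by linarith [le_max_right q t, ht.1]) (max_lt hq ht.2)).ne'

lemma path_aemeas (hg : Adm g) {q : ℝ} (hq : q < 1) : AEStronglyMeasurable (path g q) μI :=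
  (hg.aemeas.aemeasurable.min
    ((continuousOn_tstar hq).aemeasurable measurableSet_Ioo)).aestronglyMeasurable

/-- The weight. -/
noncomputable def wgt (x t : ℝ) : ℝ := 7/9 + 2/3 * t ^ 2 - 2/33 * x

lemma wgt_bound {x t : ℝ} (hx : 0 ≤ x) (hx' : x ≤ 2) (ht : t ∈ Ioo (0:ℝ) 1) :
    |wgt x t| ≤ 2 := by
  unfold wgt
  rw [abs_le]
  constructor <;> nlinarith [ht.1, ht.2]

lemma integrable_path (hg : Adm g) {q : ℝ} (hq : q < 1) : Integrable (path g q) μI := by
  refine Integrable.of_bound (path_aemeas hg hq) (g 0) ?_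
  filter_upwards [ae_mem] with t ht
  rw [Real.norm_eq_abs, abs_of_nonneg (path_nonneg hg ht hq)]
  exact (path_le q t).trans (hg.le_zero (Ioo_subset_Icc_self ht))

lemma integrable_wsq (hg : Adm g) {q x : ℝ} (hq : q < 1) (hx : 0 ≤ x) (hx' : x ≤ 2) :
    Integrable (fun t => wgt x t * path g q t ^ 2) μI := by
  refine Integrable.of_bound (C := 2 * g 0 ^ 2)
    (((by unfold wgt; fun_prop : Continuous (wgt x)).aestronglyMeasurable).mul
      ((path_aemeas hg hq).pow 2)) ?_
  filter_upwards [ae_mem] with t ht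
  have h0 := path_nonneg hg ht hq
  rw [Real.norm_eq_abs, abs_mul, abs_of_nonneg (sq_nonneg (path _ _ _))]
  exact mul_le_mul (wgt_bound hx hx' ht)
    (pow_le_pow_left₀ h0 ((path_le q t).trans (hg.le_zero (Ioo_subset_Icc_self ht))) 2)
    (sq_nonneg _) (by norm_num)

/-- The functional along the path. -/
noncomputable def phi (g : ℝ → ℝ) (x q : ℝ) : ℝ :=
  32 / (3 * π ^ 2) * (∫ t, path g q t ∂μI) ^ 2 - ∫ t, wgt x t * path g q t ^ 2 ∂μI

/-- Its right derivative. -/
noncomputable def dphi (g : ℝ → ℝ) (x q : ℝ) : ℝ :=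
  32 / (3 * π ^ 2) * (2 * (∫ t, path g q t ∂μI) * ∫ t, dpath g q t ∂μI)
    - ∫ t, 2 * (wgt x t * path g q t * dpath g q t) ∂μI

lemma hasDeriv_phi (hg : Adm g) {x q : ℝ} (hx : 0 ≤ x) (hx' : x ≤ 2) (hq0 : 0 ≤ q) (hq1 : q < 1) :
    HasDerivWithinAt (phi g x) (dphi g x q) (Ioi q) q := by
  obtain ⟨B, hqB, hB⟩ := exists_between hq1
  set C := (√(1 - B ^ 2) ^ 3)⁻¹
  have h1 : HasDerivWithinAt (fun a => ∫ t, path g a t ∂μI) (∫ t, dpath g q t ∂μI) (Ioi q) q := by
    refine deriv_integral_right (C := C) hqB (fun a ha => integrable_path hg (ha.2.trans_lt hB))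
      (fun a ha => ?_) ?_
    · filter_upwards [ae_mem] with t ht
      obtain ⟨l, u⟩ := path_lip (g := g) ht ha.1.le ha.2 hB
      rwa [abs_of_nonneg l]
    · filter_upwards [ae_mem, ae_ne q] with t ht hne
      exact hasDeriv_path hg hq0 hq1 ht hne
  have h2 : HasDerivWithinAt (fun a => ∫ t, wgt x t * path g a t ^ 2 ∂μI)
      (∫ t, 2 * (wgt x t * path g q t * dpath g q t) ∂μI) (Ioi q) q := by
    refine deriv_integral_right (C := 4 * g 0 * C) hqB
      (fun a ha => integrable_wsq hg (ha.2.trans_lt hB) hx hx') (fun a ha => ?_) ?_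
    · filter_upwards [ae_mem] with t ht
      obtain ⟨l, u⟩ := path_lip (g := g) ht ha.1.le ha.2 hB
      have n1 := path_nonneg hg ht hq1
      have n2 := path_nonneg hg ht (ha.2.trans_lt hB)
      have b1 := (path_le (g := g) q t).trans (hg.le_zero (Ioo_subset_Icc_self ht))
      have b2 := (path_le (g := g) a t).trans (hg.le_zero (Ioo_subset_Icc_self ht))
      have e : wgt x t * path g a t ^ 2 - wgt x t * path g q t ^ 2
          = wgt x t * ((path g a t + path g q t) * (path g a t - path g q t)) := by ring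
      rw [e, abs_mul, abs_of_nonneg (mul_nonneg (add_nonneg n2 n1) l)]
      calc |wgt x t| * ((path g a t + path g q t) * (path g a t - path g q t))
          ≤ 2 * ((2 * g 0) * (C * (a - q))) :=
            mul_le_mul (wgt_bound hx hx' ht) (mul_le_mul (by linarith) u l (by linarith [hg.one_le]))
              (mul_nonneg (add_nonneg n2 n1) l) (by norm_num)
        _ = 4 * g 0 * C * (a - q) := by ring
    · filter_upwards [ae_mem, ae_ne q] with t ht hne
      refine (((hasDeriv_path hg hq0 hq1 ht hne).fun_pow 2).const_mul (wgt x t)).congr_deriv ?_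
      ring
  refine (((h1.fun_pow 2).const_mul (32 / (3 * π ^ 2))).sub h2).congr_deriv ?_
  unfold dphi
  ring

lemma phi_lip_continuous (hg : Adm g) {x : ℝ} (hx : 0 ≤ x) (hx' : x ≤ 2) {B : ℝ} (hB : B < 1) :
    ContinuousOn (phi g x) (Icc 0 B) := by
  have hcont : ∀ t ∈ Ioo (0:ℝ) 1, ContinuousOn (fun a => path g a t) (Icc 0 B) := by
    intro t ht
    unfold path tstar tang
    refine ContinuousOn.inf continuousOn_const (ContinuousOn.div (by fun_prop) (by fun_prop) ?_)
    intro a ha
    exact (sqrt_pos_of (by linarith [le_max_right a t, ht.1])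
      (max_lt (lt_of_le_of_lt ha.2 hB) ht.2)).ne'
  unfold phi
  refine (continuousOn_const.mul (ContinuousOn.pow ?_ 2)).sub ?_
  · refine continuousOn_of_dominated (bound := fun _ => g 0)
      (fun a ha => path_aemeas hg (lt_of_le_of_lt ha.2 hB)) (fun a ha => ?_) (integrable_const _) ?_
    · filter_upwards [ae_mem] with t ht
      rw [Real.norm_eq_abs, abs_of_nonneg (path_nonneg hg ht (lt_of_le_of_lt ha.2 hB))]
      exact (path_le a t).trans (hg.le_zero (Ioo_subset_Icc_self ht))
    · filter_upwards [ae_mem] with t ht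
      exact hcont t ht
  · refine continuousOn_of_dominated (bound := fun _ => 2 * g 0 ^ 2)
      (fun a ha => (integrable_wsq hg (lt_of_le_of_lt ha.2 hB) hx hx').aestronglyMeasurable)
      (fun a ha => ?_) (integrable_const _) ?_
    · filter_upwards [ae_mem] with t ht
      have h0 := path_nonneg hg ht (lt_of_le_of_lt ha.2 hB)
      rw [Real.norm_eq_abs, abs_mul, abs_of_nonneg (sq_nonneg (path _ _ _))]
      exact mul_le_mul (wgt_bound hx hx' ht)
        (pow_le_pow_left₀ h0 ((path_le a t).trans (hg.le_zero (Ioo_subset_Icc_self ht))) 2)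
        (sq_nonneg _) (by norm_num)
    · filter_upwards [ae_mem] with t ht
      exact (continuousOn_const).mul ((hcont t ht).pow 2)

end Vale.Agent.P237.Profile
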