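import Vale.Agent.P237.Profile.Segment

/-!
# The profile inequality
-/

namespace Vale.Agent.P237.Profile

open Set MeasureTheory Filter
open scoped Topology Real

variable {g : ℝ → ℝ}

lemma Adm.intervalIntegrable (hg : Adm g) : IntervalIntegrable g volume 0 1 :=
  (hg.anti.mono (by rw [uIcc_of_le zero_le_one])).intervalIntegrable

lemma Adm.sq_anti (hg : Adm g) : AntitoneOn (fun t => g t ^ 2) (Icc (0:ℝ) 1) :=
  fun u hu v hv huv => pow_le_pow_left₀ (hg.nonneg hv) (hg.anti hu hv huv) 2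

lemma Adm.sq_intervalIntegrable (hg : Adm g) :
    IntervalIntegrable (fun t => g t ^ 2) volume 0 1 :=
  (hg.sq_anti.mono (by rw [uIcc_of_le zero_le_one])).intervalIntegrable

lemma Adm.tsq_intervalIntegrable (hg : Adm g) :
    IntervalIntegrable (fun t => t ^ 2 * g t ^ 2) volume 0 1 :=
  hg.sq_intervalIntegrable.continuousOn_mul (by fun_prop)

lemma ii_one_sub_sq : ∫ t in (0:ℝ)..1, (1 - t ^ 2) = 2/3 := by
  rw [intervalIntegral.integral_sub intervalIntegrable_const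
    ((by fun_prop : Continuous fun t : ℝ => t ^ 2).intervalIntegrable 0 1), integral_pow]
  simp; norm_num

lemma Adm.two_thirds_le (hg : Adm g) : 2/3 ≤ ∫ t in (0:ℝ)..1, g t ^ 2 := by
  rw [← ii_one_sub_sq]
  refine intervalIntegral.integral_mono_on zero_le_one
    ((by fun_prop : Continuous fun t : ℝ => 1 - t ^ 2).intervalIntegrable 0 1)
    hg.sq_intervalIntegrable fun t ht => ?_
  have h' := pow_le_pow_left₀ (Real.sqrt_nonneg _) (hg.ge t ht) 2
  rwa [Real.sq_sqrt (by nlinarith [ht.1, ht.2])] at h'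

/-- The second moment of a decreasing profile is at most that of a constant one. -/
lemma Adm.moment_le (hg : Adm g) :
    (∫ t in (0:ℝ)..1, t ^ 2 * g t ^ 2) ≤ (∫ t in (0:ℝ)..1, g t ^ 2) / 3 := by
  have hr : (0:ℝ) ≤ √(1/3) ∧ √(1/3) ≤ 1 :=
    ⟨Real.sqrt_nonneg _, Real.sqrt_le_one.2 (by norm_num)⟩
  have hr2 : √(1/3 : ℝ) ^ 2 = 1/3 := Real.sq_sqrt (by norm_num)
  set r := √(1/3 : ℝ)
  have hle : ∀ t ∈ Icc (0:ℝ) 1, t ^ 2 * g t ^ 2 ≤ 1/3 * g t ^ 2 + g r ^ 2 * (t ^ 2 - 1/3) := by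
    intro t ht
    rcases le_total t r with h | h
    · have h1 := hg.sq_anti ht hr h
      have h2 : t ^ 2 ≤ 1/3 := hr2 ▸ pow_le_pow_left₀ ht.1 h 2
      nlinarith
    · have h1 := hg.sq_anti hr ht h
      have h2 : 1/3 ≤ t ^ 2 := hr2 ▸ pow_le_pow_left₀ hr.1 h 2
      nlinarith
  have hc : IntervalIntegrable (fun t : ℝ => g r ^ 2 * (t ^ 2 - 1/3)) volume 0 1 :=
    (by fun_prop : Continuous fun t : ℝ => g r ^ 2 * (t ^ 2 - 1/3)).intervalIntegrable 0 1
  have h := intervalIntegral.integral_mono_on zero_le_one hg.tsq_intervalIntegrable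
    ((hg.sq_intervalIntegrable.const_mul _).add hc) hle
  rw [intervalIntegral.integral_add (hg.sq_intervalIntegrable.const_mul _) hc,
    intervalIntegral.integral_const_mul, intervalIntegral.integral_const_mul,
    intervalIntegral.integral_sub ((by fun_prop : Continuous fun t : ℝ => t ^ 2).intervalIntegrable
      0 1) intervalIntegrable_const, integral_pow] at h
  norm_num at h
  linarith

lemma poly_moment {v : ℝ} (h1 : 1 ≤ v) (h2 : v ≤ 13/10) :
    (5/3 + 5/11 * (v ^ 3 - 1)) * (v ^ 3 - 1) ≤ v ^ 5 - 1 := by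
  obtain ⟨u, rfl⟩ : ∃ u, v = 1 + u := ⟨v - 1, by ring⟩
  have hu : 0 ≤ u := by linarith
  have hu' : u ≤ 3/10 := by linarith
  nlinarith [mul_nonneg hu hu, mul_nonneg (mul_nonneg hu hu) hu,
    mul_nonneg (mul_nonneg hu hu) (sub_nonneg.2 hu'),
    mul_nonneg (mul_nonneg (mul_nonneg hu hu) hu) (sub_nonneg.2 hu'),
    mul_nonneg (mul_nonneg (mul_nonneg (mul_nonneg hu hu) hu) hu) (sub_nonneg.2 hu')]

lemma moment_consequences {M T : ℝ} (hM : 2/3 ≤ M)
    (hmom : (1/5 : ℝ) * (3/2 * M) ^ (2/3 : ℝ) * M ≤ T) (hT : T ≤ M / 3) :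
    M ≤ 14345/10000 ∧ (1/3 + (3/2 * (M - 2/3)) / 11) * (M - 2/3) ≤ T - 2/15 := by
  set v := (3/2 * M) ^ (1/3 : ℝ) with hv
  have hμ : 0 ≤ 3/2 * M := by linarith
  have hv0 : 0 ≤ v := Real.rpow_nonneg hμ _
  have hv3 : v ^ 3 = 3/2 * M := by
    rw [hv, ← Real.rpow_natCast, ← Real.rpow_mul hμ]; norm_num
  have hv2 : (3/2 * M) ^ (2/3 : ℝ) = v ^ 2 := by
    rw [hv, ← Real.rpow_natCast, ← Real.rpow_mul hμ]; norm_num
  rw [hv2] at hmom
  have hv1 : 1 ≤ v := by
    by_contra hc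
    have : v ^ 3 < 1 := pow_lt_one₀ hv0 (not_le.1 hc) (by norm_num)
    linarith
  have hsq : v ^ 2 ≤ 5/3 := by nlinarith
  have hv6 : (v ^ 3) ^ 2 ≤ (5/3) ^ 3 := by
    calc (v ^ 3) ^ 2 = (v ^ 2) ^ 3 := by ring
      _ ≤ (5/3) ^ 3 := pow_le_pow_left₀ (sq_nonneg v) hsq 3
  have hMM : M ≤ 14345/10000 := by nlinarith
  refine ⟨hMM, ?_⟩
  have hp := poly_moment hv1 (by nlinarith)
  have e : M = 2/3 * v ^ 3 := by linarith
  rw [e] at hmom ⊢
  nlinarith

theorem profile_core_strong (hg : Adm g)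
    (hmom : (1/5 : ℝ) * (3/2 * ∫ t in (0:ℝ)..1, g t ^ 2) ^ (2/3 : ℝ) * (∫ t in (0:ℝ)..1, g t ^ 2)
      ≤ ∫ t in (0:ℝ)..1, t ^ 2 * g t ^ 2) :
    (∫ t in (0:ℝ)..1, g t ^ 2)
        + 2/3 * ((∫ t in (0:ℝ)..1, t ^ 2 * g t ^ 2) - 2/15
          - (1/3 + (3/2 * ((∫ t in (0:ℝ)..1, g t ^ 2) - 2/3)) / 11)
            * ((∫ t in (0:ℝ)..1, g t ^ 2) - 2/3))
      ≤ 32 / (3 * π ^ 2) * (∫ t in (0:ℝ)..1, g t) ^ 2 := by
  have hM23 := hg.two_thirds_le
  obtain ⟨hMM, hkey⟩ := moment_consequences hM23 hmom hg.moment_le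
  set M := ∫ t in (0:ℝ)..1, g t ^ 2 with hM
  set T := ∫ t in (0:ℝ)..1, t ^ 2 * g t ^ 2 with hT
  set x := 3/2 * (M - 2/3) with hx
  have hx0 : 0 ≤ x := by rw [hx]; linarith
  have hx2 : x ≤ 2 := by rw [hx]; linarith
  -- monotone along the path
  have hmono : ∀ b ∈ Ico (0:ℝ) 1, phi g x 0 ≤ phi g x b := by
    intro b hb
    have := image_le_of_deriv_right_le_deriv_boundary (f := fun q => -phi g x q)
      (f' := fun q => -dphi g x q) (a := 0) (b := b) (phi_lip_continuous hg hx0 hx2 hb.2).neg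
      (fun q hq => ((hasDeriv_phi hg hx0 hx2 hq.1 (hq.2.trans hb.2)).Ici_of_Ioi).neg)
      (B := fun _ => -phi g x 0) (B' := fun _ => 0) le_rfl continuousOn_const
      (fun q _ => hasDerivWithinAt_const q _ _)
      (fun q hq => neg_nonpos.2 (dphi_nonneg hg (hq.2.trans hb.2) (by rw [hx]) (by rw [hx]; linarith)))
      (right_mem_Icc.2 hb.1)
    simpa using this
  -- the limit at the end of the path
  have hwI : Continuous (wgt x) := by unfold wgt; fun_prop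
  have hlim_t : ∀ t ∈ Ioo (0:ℝ) 1, Tendsto (fun q => path g q t) (𝓝[<] 1) (𝓝 (g t)) := by
    intro t ht
    refine tendsto_const_nhds.congr' ?_
    have hS : Tendsto (fun q : ℝ => √(1 - q ^ 2) * g t) (𝓝[<] 1) (𝓝 0) := by
      have : Tendsto (fun q : ℝ => √(1 - q ^ 2) * g t) (𝓝 1) (𝓝 (√(1 - 1 ^ 2) * g t)) :=
        (by fun_prop : Continuous fun q : ℝ => √(1 - q ^ 2) * g t).tendsto 1
      simpa using this.mono_left nhdsWithin_le_nhds
    filter_upwards [hS.eventually_lt_const (sub_pos.2 ht.2), Ioo_mem_nhdsLT ht.2] with q hq hq'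
    have hq0 : 0 < √(1 - q ^ 2) := sqrt_pos_of (by linarith [hq'.1, ht.1]) hq'.2
    rw [path, tstar_of_le hq'.1.le, min_eq_left]
    rw [tang, le_div_iff₀ hq0]
    nlinarith [ht.1, hq'.2]
  have hlim : Tendsto (phi g x) (𝓝[<] 1)
      (𝓝 (32 / (3 * π ^ 2) * (∫ t, g t ∂μI) ^ 2 - ∫ t, wgt x t * g t ^ 2 ∂μI)) := by
    have hlt : ∀ᶠ q in 𝓝[<] (1:ℝ), q < 1 := self_mem_nhdsWithin
    refine ((Tendsto.pow ?_ 2).const_mul _).sub ?_
    · refine tendsto_integral_filter_of_dominated_convergence (fun _ => g 0)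
        (hlt.mono fun q hq => path_aemeas hg hq) (hlt.mono fun q hq => ?_) (integrable_const _) ?_
      · filter_upwards [ae_mem] with t ht
        rw [Real.norm_eq_abs, abs_of_nonneg (path_nonneg hg ht hq)]
        exact (path_le q t).trans (hg.le_zero (Ioo_subset_Icc_self ht))
      · filter_upwards [ae_mem] with t ht
        exact hlim_t t ht
    · refine tendsto_integral_filter_of_dominated_convergence (fun _ => 2 * g 0 ^ 2)
        (hlt.mono fun q hq => (integrable_wsq hg hq hx0 hx2).aestronglyMeasurable)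
        (hlt.mono fun q hq => ?_) (integrable_const _) ?_
      · filter_upwards [ae_mem] with t ht
        have h0 := path_nonneg hg ht hq
        rw [Real.norm_eq_abs, abs_mul, abs_of_nonneg (sq_nonneg (path _ _ _))]
        exact mul_le_mul (wgt_bound hx0 hx2 ht)
          (pow_le_pow_left₀ h0 ((path_le q t).trans (hg.le_zero (Ioo_subset_Icc_self ht))) 2)
          (sq_nonneg _) (by norm_num)
      · filter_upwards [ae_mem] with t ht
        exact ((hlim_t t ht).pow 2).const_mul _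
  have hend : phi g x 0 ≤ 32 / (3 * π ^ 2) * (∫ t, g t ∂μI) ^ 2 - ∫ t, wgt x t * g t ^ 2 ∂μI :=
    ge_of_tendsto hlim (Filter.mem_of_superset (Ioo_mem_nhdsLT zero_lt_one)
      fun q hq => hmono q ⟨hq.1.le, hq.2⟩)
  -- both ends
  have ew : ∫ t, wgt x t * g t ^ 2 ∂μI = (7/9 - 2/33 * x) * M + 2/3 * T := by
    rw [muI_integral, hM, hT, ← intervalIntegral.integral_const_mul,
      ← intervalIntegral.integral_const_mul, ← intervalIntegral.integral_add
        (hg.sq_intervalIntegrable.const_mul _) (hg.tsq_intervalIntegrable.const_mul _)]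
    exact intervalIntegral.integral_congr fun t _ => by unfold wgt; ring
  have e0 : phi g x 0 = 2/3 - ((7/9 - 2/33 * x) * (2/3) + 2/3 * (2/15)) := by
    have a1 : ∫ t, path g 0 t ∂μI = π / 4 := by
      rw [muI_integral, ii_congr zero_le_one (fun t ht => path_zero hg ht), ii_sqrt]
    have a2 : ∫ t, wgt x t * path g 0 t ^ 2 ∂μI = (7/9 - 2/33 * x) * (2/3) + 2/3 * (2/15) := by
      rw [muI_integral, ii_congr (h := fun t => (7/9 - 2/33 * x) * (1 - t ^ 2)
        + 2/3 * (t ^ 2 - t ^ 4)) zero_le_one ?_]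
      · rw [intervalIntegral.integral_add
          ((by fun_prop : Continuous fun t : ℝ => (7/9 - 2/33 * x) * (1 - t ^ 2)).intervalIntegrable
            0 1)
          ((by fun_prop : Continuous fun t : ℝ => 2/3 * (t ^ 2 - t ^ 4)).intervalIntegrable 0 1),
          intervalIntegral.integral_const_mul, intervalIntegral.integral_const_mul, ii_one_sub_sq,
          intervalIntegral.integral_sub
            ((by fun_prop : Continuous fun t : ℝ => t ^ 2).intervalIntegrable 0 1)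
            ((by fun_prop : Continuous fun t : ℝ => t ^ 4).intervalIntegrable 0 1),
          integral_pow, integral_pow]
        norm_num
      · intro t ht
        rw [path_zero hg ht, Real.sq_sqrt (by nlinarith [ht.1, ht.2])]
        unfold wgt; ring
    rw [phi, a1, a2]
    congr 1
    field_simp
    ring
  rw [e0, ew, muI_integral] at hend
  rw [hx] at hend ⊢
  nlinarith

theorem profile_core (hg : Adm g)
    (hmom : (1/5 : ℝ) * (3/2 * ∫ t in (0:ℝ)..1, g t ^ 2) ^ (2/3 : ℝ) * (∫ t in (0:ℝ)..1, g t ^ 2)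
      ≤ ∫ t in (0:ℝ)..1, t ^ 2 * g t ^ 2) :
    3 * π ^ 2 / 32 * (∫ t in (0:ℝ)..1, g t ^ 2) ≤ (∫ t in (0:ℝ)..1, g t) ^ 2 := by
  have h := profile_core_strong hg hmom
  have hkey := (moment_consequences hg.two_thirds_le hmom hg.moment_le).2
  calc 3 * π ^ 2 / 32 * (∫ t in (0:ℝ)..1, g t ^ 2)
      ≤ 3 * π ^ 2 / 32 * (32 / (3 * π ^ 2) * (∫ t in (0:ℝ)..1, g t) ^ 2) :=
        mul_le_mul_of_nonneg_left (by linarith) (by positivity)
    _ = _ := by field_simp

lemma poly_moment_strict {v : ℝ} (h1 : 1 < v) (h2 : v ≤ 13/10) :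
    (5/3 + 5/11 * (v ^ 3 - 1)) * (v ^ 3 - 1) < v ^ 5 - 1 := by
  obtain ⟨u, rfl⟩ : ∃ u, v = 1 + u := ⟨v - 1, by ring⟩
  have hu : 0 < u := by linarith
  have hu' : u ≤ 3/10 := by linarith
  nlinarith [mul_pos hu hu, mul_pos (mul_pos hu hu) hu,
    mul_nonneg (mul_nonneg hu.le hu.le) (sub_nonneg.2 hu'),
    mul_nonneg (mul_nonneg (mul_nonneg hu.le hu.le) hu.le) (sub_nonneg.2 hu'),
    mul_nonneg (mul_nonneg (mul_nonneg (mul_nonneg hu.le hu.le) hu.le) hu.le) (sub_nonneg.2 hu')]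

/-- Equality forces the volume of the ball. -/
theorem profile_core_eq (hg : Adm g)
    (hmom : (1/5 : ℝ) * (3/2 * ∫ t in (0:ℝ)..1, g t ^ 2) ^ (2/3 : ℝ) * (∫ t in (0:ℝ)..1, g t ^ 2)
      ≤ ∫ t in (0:ℝ)..1, t ^ 2 * g t ^ 2)
    (heq : (∫ t in (0:ℝ)..1, g t) ^ 2 ≤ 3 * π ^ 2 / 32 * (∫ t in (0:ℝ)..1, g t ^ 2)) :
    (∫ t in (0:ℝ)..1, g t ^ 2) = 2/3 := by
  have h := profile_core_strong hg hmom
  have hM := hg.two_thirds_le
  obtain ⟨hMM, -⟩ := moment_consequences hM hmom hg.moment_le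
  set M := ∫ t in (0:ℝ)..1, g t ^ 2
  set T := ∫ t in (0:ℝ)..1, t ^ 2 * g t ^ 2
  have h' : 32 / (3 * π ^ 2) * (∫ t in (0:ℝ)..1, g t) ^ 2 ≤ M :=
    calc 32 / (3 * π ^ 2) * (∫ t in (0:ℝ)..1, g t) ^ 2
        ≤ 32 / (3 * π ^ 2) * (3 * π ^ 2 / 32 * M) := mul_le_mul_of_nonneg_left heq (by positivity)
      _ = M := by field_simp
  by_contra hne
  set v := (3/2 * M) ^ (1/3 : ℝ) with hv
  have hμ : 0 ≤ 3/2 * M := by linarith
  have hv0 : 0 ≤ v := Real.rpow_nonneg hμ _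
  have hv3 : v ^ 3 = 3/2 * M := by
    rw [hv, ← Real.rpow_natCast, ← Real.rpow_mul hμ]; norm_num
  have hv2 : (3/2 * M) ^ (2/3 : ℝ) = v ^ 2 := by
    rw [hv, ← Real.rpow_natCast, ← Real.rpow_mul hμ]; norm_num
  have hM' : 2/3 < M := lt_of_le_of_ne hM (Ne.symm hne)
  have hv1 : 1 < v := by
    by_contra hc
    have : v ^ 3 ≤ 1 := pow_le_one₀ hv0 (not_lt.1 hc)
    linarith
  have hv13 : v ≤ 13/10 := by
    by_contra hc
    nlinarith [pow_lt_pow_left₀ (not_le.1 hc) (by norm_num) (show (3:ℕ) ≠ 0 by norm_num)]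
  have hp := poly_moment_strict hv1 hv13
  rw [hv2] at hmom
  have e : M = 2/3 * v ^ 3 := by linarith
  rw [e] at h h' hmom
  nlinarith

end Vale.Agent.P237.Profile
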