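import Vale.Agent.P237.Profile.Stage

/-!
# The path of profiles from the semicircle to a concave profile
-/

namespace Vale.Agent.P237.Profile

open Set MeasureTheory Filter intervalIntegral
open scoped Topology Real

/-- The tangent line at `a` to the unit semicircle, evaluated at `t`. -/
noncomputable def tang (a t : ℝ) : ℝ := (1 - a * t) / √(1 - a ^ 2)

/-- Derivative of `tang a t` in `a`. -/
noncomputable def tang' (a t : ℝ) : ℝ := (a - t) / √(1 - a ^ 2) ^ 3

lemma sqrt_pos_of {a : ℝ} (h0 : -1 < a) (h1 : a < 1) : 0 < √(1 - a ^ 2) :=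
  Real.sqrt_pos.2 (by nlinarith)

lemma hasDerivAt_tang {a : ℝ} (h0 : -1 < a) (h1 : a < 1) (t : ℝ) :
    HasDerivAt (fun a => tang a t) (tang' a t) a := by
  have hp : 0 < 1 - a ^ 2 := by nlinarith
  have hS := sqrt_pos_of h0 h1
  have hnum : HasDerivAt (fun a : ℝ => 1 - a * t) (-t) a := by
    simpa using ((hasDerivAt_id a).mul_const t).const_sub 1
  have hden : HasDerivAt (fun a : ℝ => √(1 - a ^ 2)) ((-(2 * a)) / (2 * √(1 - a ^ 2))) a := by
    have : HasDerivAt (fun a : ℝ => 1 - a ^ 2) (-(2 * a)) a := by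
      simpa using ((hasDerivAt_id a).pow 2).const_sub 1
    exact this.sqrt hp.ne'
  refine (hnum.div hden hS.ne').congr_deriv ?_
  show _ = (a - t) / √(1 - a ^ 2) ^ 3
  set S := √(1 - a ^ 2) with hSd
  have hS2 : S ^ 2 = 1 - a ^ 2 := Real.sq_sqrt hp.le
  field_simp
  rw [hS2]; ring

lemma sqrt_le_tang {a t : ℝ} (h0 : -1 < a) (h1 : a < 1) (ht : a * t ≤ 1) :
    √(1 - t ^ 2) ≤ tang a t := by
  have hS := sqrt_pos_of h0 h1
  unfold tang
  rw [le_div_iff₀ hS, ← Real.sqrt_mul' _ (by nlinarith)]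
  rw [Real.sqrt_le_left (by linarith)]
  nlinarith [sq_nonneg (a - t)]

/-- `tang` stopped at the touching point. -/
noncomputable def tstar (q t : ℝ) : ℝ := tang (max q t) t

lemma tang_self {t : ℝ} (h0 : -1 < t) (h1 : t < 1) : tang t t = √(1 - t ^ 2) := by
  have := sqrt_pos_of h0 h1
  unfold tang
  rw [div_eq_iff this.ne', Real.mul_self_sqrt (by nlinarith)]; ring

lemma tstar_of_le {q t : ℝ} (h : t ≤ q) : tstar q t = tang q t := by
  rw [tstar, max_eq_left h]

lemma tstar_of_ge {q t : ℝ} (h : q ≤ t) (h0 : -1 < t) (h1 : t < 1) :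
    tstar q t = √(1 - t ^ 2) := by
  rw [tstar, max_eq_right h, tang_self h0 h1]

lemma tang_mono {t a b : ℝ} (ht : 0 ≤ t) (hta : t ≤ a) (hab : a ≤ b) (hb : b < 1) :
    tang a t ≤ tang b t := by
  refine monotoneOn_of_hasDerivWithinAt_nonneg (f := fun c => tang c t) (f' := fun c => tang' c t) (convex_Icc t b)
    ?_ ?_ ?_ ⟨hta, hab⟩ ⟨hta.trans hab, le_rfl⟩ hab
  · intro c hc
    exact (hasDerivAt_tang (by linarith [hc.1]) (by linarith [hc.2]) t).continuousAt.continuousWithinAt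
  · intro c hc
    rw [interior_Icc] at hc
    exact (hasDerivAt_tang (by linarith [hc.1]) (by linarith [hc.2]) t).hasDerivWithinAt
  · intro c hc
    rw [interior_Icc] at hc
    exact div_nonneg (by linarith [hc.1]) (pow_nonneg (Real.sqrt_nonneg _) _)

lemma tang'_le {t a b : ℝ} (ht : 0 ≤ t) (hta : t ≤ a) (hab : a ≤ b) (hb : b < 1) :
    tang' a t ≤ (√(1 - b ^ 2) ^ 3)⁻¹ := by
  have hSb := sqrt_pos_of (by linarith : -1 < b) hb
  have hle : √(1 - b ^ 2) ≤ √(1 - a ^ 2) := Real.sqrt_le_sqrt (by nlinarith)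
  unfold tang'
  calc (a - t) / √(1 - a ^ 2) ^ 3 ≤ 1 / √(1 - a ^ 2) ^ 3 :=
        div_le_div_of_nonneg_right (by linarith) (by positivity)
    _ ≤ (√(1 - b ^ 2) ^ 3)⁻¹ := by
        rw [one_div]; exact inv_anti₀ (by positivity) (pow_le_pow_left₀ hSb.le hle 3)

lemma tstar_mono {t a b : ℝ} (ht : 0 ≤ t) (ht1 : t < 1) (hab : a ≤ b) (hb : b < 1) :
    tstar a t ≤ tstar b t :=
  tang_mono ht (le_max_right _ _) (max_le_max hab le_rfl) (max_lt hb ht1)

lemma tstar_lip {t a b B : ℝ} (ht : 0 ≤ t) (hab : a ≤ b) (hbB : b ≤ B) (hB : B < 1) :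
    tstar b t - tstar a t ≤ (√(1 - B ^ 2) ^ 3)⁻¹ * (b - a) := by
  have hC : 0 ≤ (√(1 - B ^ 2) ^ 3)⁻¹ := by positivity
  rcases le_total b t with hbt | hbt
  · simp only [tstar, max_eq_right hbt, max_eq_right (hab.trans hbt), sub_self]
    exact mul_nonneg hC (by linarith)
  · rw [tstar, max_eq_left hbt, tstar]
    set a' := max a t
    have h1 : t ≤ a' := le_max_right _ _
    have h2 : a' ≤ b := max_le hab hbt
    have key := Convex.image_sub_le_mul_sub_of_deriv_le (D := Icc t b) (convex_Icc t b)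
      (f := fun c => tang c t) ?_ ?_ (C := (√(1 - B ^ 2) ^ 3)⁻¹) ?_ a' ⟨h1, h2⟩ b ⟨hbt, le_rfl⟩ h2
    · exact key.trans (mul_le_mul_of_nonneg_left (by linarith [le_max_left a t]) hC)
    · intro c hc
      exact (hasDerivAt_tang (by linarith [hc.1]) (by linarith [hc.2]) t).continuousAt.continuousWithinAt
    · intro c hc
      rw [interior_Icc] at hc
      exact (hasDerivAt_tang (by linarith [hc.1]) (by linarith [hc.2]) t).differentiableAt.differentiableWithinAt
    · intro c hc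
      rw [interior_Icc] at hc
      rw [(hasDerivAt_tang (by linarith [hc.1]) (by linarith [hc.2]) t).deriv]
      exact tang'_le ht hc.1.le (by linarith [hc.2]) hB

/-- Hypotheses on a profile. -/
structure Adm (g : ℝ → ℝ) : Prop where
  conc : ConcaveOn ℝ (Icc (0:ℝ) 1) g
  anti : AntitoneOn g (Icc (0:ℝ) 1)
  ge : ∀ t ∈ Icc (0:ℝ) 1, √(1 - t ^ 2) ≤ g t

/-- The path. -/
noncomputable def path (g : ℝ → ℝ) (q t : ℝ) : ℝ := min (g t) (tstar q t)

variable {g : ℝ → ℝ}

lemma Adm.nonneg (hg : Adm g) {t : ℝ} (ht : t ∈ Icc (0:ℝ) 1) : 0 ≤ g t :=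
  (Real.sqrt_nonneg _).trans (hg.ge t ht)

lemma Adm.le_zero (hg : Adm g) {t : ℝ} (ht : t ∈ Icc (0:ℝ) 1) : g t ≤ g 0 :=
  hg.anti ⟨le_rfl, zero_le_one⟩ ht ht.1

lemma Adm.one_le (hg : Adm g) : 1 ≤ g 0 := by
  simpa using hg.ge 0 ⟨le_rfl, zero_le_one⟩

lemma sqrt_le_tstar {q t : ℝ} (ht0 : 0 ≤ t) (ht : t < 1) (hq : q < 1) :
    √(1 - t ^ 2) ≤ tstar q t :=
  sqrt_le_tang (by linarith [le_max_right q t]) (max_lt hq ht)
    (by nlinarith [max_lt hq ht, le_max_right q t])

lemma path_ge (hg : Adm g) {q t : ℝ} (ht : t ∈ Ioo (0:ℝ) 1) (hq : q < 1) :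
    √(1 - t ^ 2) ≤ path g q t :=
  le_min (hg.ge t (Ioo_subset_Icc_self ht)) (sqrt_le_tstar ht.1.le ht.2 hq)

lemma path_nonneg (hg : Adm g) {q t : ℝ} (ht : t ∈ Ioo (0:ℝ) 1) (hq : q < 1) :
    0 ≤ path g q t := (Real.sqrt_nonneg _).trans (path_ge hg ht hq)

lemma path_le (q t : ℝ) : path g q t ≤ g t := min_le_left _ _

lemma path_zero (hg : Adm g) {t : ℝ} (ht : t ∈ Ioo (0:ℝ) 1) :
    path g 0 t = √(1 - t ^ 2) := by
  rw [path, tstar_of_ge ht.1.le (by linarith [ht.1]) ht.2]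
  exact min_eq_right (hg.ge t (Ioo_subset_Icc_self ht))

lemma path_lip {t a b B : ℝ} (ht : t ∈ Ioo (0:ℝ) 1) (hab : a ≤ b) (hbB : b ≤ B) (hB : B < 1) :
    0 ≤ path g b t - path g a t ∧
      path g b t - path g a t ≤ (√(1 - B ^ 2) ^ 3)⁻¹ * (b - a) := by
  have h1 := tstar_mono ht.1.le ht.2 hab (lt_of_le_of_lt hbB hB)
  have h2 := tstar_lip ht.1.le hab hbB hB
  have h3 : min (g t) (tstar b t) - min (g t) (tstar a t) ≤ tstar b t - tstar a t := by
    rcases le_total (g t) (tstar a t) with h | h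
    · rw [min_eq_left h, min_eq_left (h.trans h1)]; linarith
    · rw [min_eq_right h]; linarith [min_le_right (g t) (tstar b t)]
  exact ⟨sub_nonneg.2 (min_le_min le_rfl h1), h3.trans h2⟩

/-- The right derivative of the path in `q`. -/
noncomputable def dpath (g : ℝ → ℝ) (q t : ℝ) : ℝ :=
  if t < q ∧ tang q t < g t then tang' q t else 0

lemma hasDeriv_path (hg : Adm g) {q t : ℝ} (hq0 : 0 ≤ q) (hq1 : q < 1)
    (ht : t ∈ Ioo (0:ℝ) 1) (hne : t ≠ q) :
    HasDerivWithinAt (fun a => path g a t) (dpath g q t) (Ioi q) q := by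
  rcases lt_or_gt_of_ne hne with htq | htq
  · have hev : (fun a => path g a t) =ᶠ[𝓝[>] q] fun a => min (g t) (tang a t) := by
      filter_upwards [self_mem_nhdsWithin] with a ha
      simp only [path, tstar_of_le (le_of_lt (htq.trans ha))]
    have hq' : path g q t = min (g t) (tang q t) := by rw [path, tstar_of_le htq.le]
    refine HasDerivWithinAt.congr_of_eventuallyEq ?_ hev hq'
    have hd := hasDerivAt_tang (by linarith : -1 < q) hq1 t
    unfold dpath
    by_cases hc : tang q t < g t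
    · rw [if_pos ⟨htq, hc⟩]
      refine hd.hasDerivWithinAt.congr_of_eventuallyEq ?_ (min_eq_right hc.le)
      have : ∀ᶠ a in 𝓝 q, tang a t < g t := hd.continuousAt.eventually_lt continuousAt_const hc
      filter_upwards [nhdsWithin_le_nhds this] with a ha
      exact min_eq_right ha.le
    · rw [if_neg (fun h => hc h.2)]
      refine (hasDerivWithinAt_const q _ (g t)).congr_of_eventuallyEq ?_
        (min_eq_left (not_lt.1 hc))
      filter_upwards [self_mem_nhdsWithin, nhdsWithin_le_nhds (eventually_lt_nhds hq1)] with a ha ha1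
      exact min_eq_left ((not_lt.1 hc).trans (tang_mono ht.1.le htq.le (le_of_lt ha) ha1))
  · have hd : dpath g q t = 0 := if_neg (fun h => lt_asymm h.1 htq)
    rw [hd]
    refine (hasDerivWithinAt_const q _ (path g q t)).congr_of_eventuallyEq ?_ rfl
    filter_upwards [nhdsWithin_le_nhds (eventually_lt_nhds htq)] with a ha
    simp only [path, tstar, max_eq_right ha.le, max_eq_right htq.le]

end Vale.Agent.P237.Profile
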